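import Vale.Agent.P050.H98.SubMap

/-!
Subdivisions of Cartesian products: the theorem.
-/

set_option linter.unusedSectionVars false

namespace Vale.Agent.P050.H98

open Finset Vale.Agent.P050.Lev Vale.Agent.P050.H149

variable {V W : Type}

/-- **Subdivisions of Cartesian products.** -/
theorem subSid_box [Finite V] [Finite W] {F : SimpleGraph V} {G : SimpleGraph W} (hF : SubSid F)
    (hG : SubSid G) : SubSid (F □ G) := by
  intro i j
  obtain ⟨iF⟩ : Nonempty (Fintype (V ⊕ F.edgeSet)) := ⟨Fintype.ofFinite _⟩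
  obtain ⟨iG⟩ : Nonempty (Fintype (W ⊕ G.edgeSet)) := ⟨Fintype.ofFinite _⟩
  obtain ⟨iW⟩ : Nonempty (Fintype W) := ⟨Fintype.ofFinite _⟩
  obtain ⟨jF⟩ : Nonempty (DecidableEq (V ⊕ F.edgeSet)) := ⟨Classical.decEq _⟩
  obtain ⟨jG⟩ : Nonempty (DecidableEq (W ⊕ G.edgeSet)) := ⟨Classical.decEq _⟩
  obtain ⟨jW⟩ : Nonempty (DecidableEq W) := ⟨Classical.decEq _⟩
  have hF' := hF iF jF
  have hG' := hG iG jG
  have key := repl_gsid (V := V ⊕ F.edgeSet) (W := W ⊕ G.edgeSet) (J := W) Sum.inl hG' hF'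
  exact (gsid_restrict ⟨toSub F G, toSub_inj F G⟩
    (toSub_adj F G) (fun u _ _ => toSub_surj F G u) (toSub_side F G)).2 key

theorem subSid_sidorenko [Finite V] {F : SimpleGraph V} (h : SubSid F) {U : Type} [Finite U]
    [Nonempty U] (X : SimpleGraph U) :
    edgeDensity X ^ Nat.card (sub1 F).edgeSet ≤ homDensity (sub1 F) X := by
  obtain ⟨i⟩ : Nonempty (Fintype (V ⊕ F.edgeSet)) := ⟨Fintype.ofFinite _⟩
  obtain ⟨j⟩ : Nonempty (DecidableEq (V ⊕ F.edgeSet)) := ⟨Classical.decEq _⟩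
  exact sidorenko_of_gsid (h i j) X

end Vale.Agent.P050.H98
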