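import Vale.Agent.P050.H98.Repl

/-!
Parts of Cartesian products.
-/

set_option linter.unusedSectionVars false

namespace Vale.Agent.P050.H98

open Finset Vale.Agent.P050.Lev Vale.Agent.P050.H149

variable {V W : Type} [Fintype V] [DecidableEq V] [Fintype W] [DecidableEq W]

theorem layer_gsid {B : SimpleGraph W} {H : SimpleGraph V} {s : W → Bool} {t : V → Bool}
    {φ : W → Option W} (hφ : ∀ w w', φ w' = some w → s w = s w') (hB : GSid B s)
    (hH : GSid H t) : GSid (layer B H t φ) fun p => xor (t p.1) (s p.2) := by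
  refine gsid_of_bireg ?_ (layer_bireg hφ hB.2 hH.2)
  rintro ⟨x, w⟩ ⟨y, w'⟩ (⟨h2, h3, h4⟩ | ⟨h2, h3, h4, h5⟩ | ⟨h2, h3, h4, h5⟩)
  · simp only at h2 h3 h4 ⊢
    subst h2
    have := hB.1 _ _ h4
    simpa using this
  · simp only at h2 h3 h4 h5 ⊢
    rw [h3, h4, hφ _ _ h5]
    simp
  · simp only at h2 h3 h4 h5 ⊢
    rw [h3, h4, ← hφ _ _ h5]
    simp

/-- the product without the copies of `B` over one side of `H` -/
theorem half_gsid {B : SimpleGraph W} {H : SimpleGraph V} {s : W → Bool} {t : V → Bool}
    (hB : GSid B s) (hH : GSid H t) (Γ : SimpleGraph (V × W))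
    (hΓ : ∀ p q, Γ.Adj p q ↔ (H □ B).Adj p q ∧ (p.1 = q.1 → t p.1 = false)) :
    GSid Γ fun p => xor (t p.1) (s p.2) := by
  have e : Γ = layer B H t some := by
    ext ⟨x, w⟩ ⟨y, w'⟩
    rw [hΓ, SimpleGraph.boxProd_adj]
    simp only [layer, Option.some.injEq]
    constructor
    · rintro ⟨⟨h1, h2⟩ | ⟨h1, h2⟩, h3⟩
      · have h4 := hH.1 _ _ h1
        rcases (t x).eq_false_or_eq_true with hx | hx
        · refine Or.inr (Or.inr ⟨h1, hx, ?_, h2⟩)
          rcases (t y).eq_false_or_eq_true with hy | hy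
          · exact absurd (hx.trans hy.symm) h4
          · exact hy
        · refine Or.inr (Or.inl ⟨h1, hx, ?_, h2.symm⟩)
          rcases (t y).eq_false_or_eq_true with hy | hy
          · exact hy
          · exact absurd (hx.trans hy.symm) h4
      · exact Or.inl ⟨h2, h3 h2, h1⟩
    · rintro (⟨h1, h2, h3⟩ | ⟨h1, h2, h3, h4⟩ | ⟨h1, h2, h3, h4⟩)
      · exact ⟨Or.inr ⟨h3, h1⟩, fun _ => h2⟩
      · exact ⟨Or.inl ⟨h1, h4.symm⟩, fun h => absurd h h1.ne⟩
      · exact ⟨Or.inl ⟨h1, h4⟩, fun h => absurd h h1.ne⟩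
  rw [e]
  refine layer_gsid (fun w w' h => ?_) hB hH
  rw [Option.some.inj h]

/-- the product without the pairs of vertices of the colour `true` -/
theorem corner_gsid {B : SimpleGraph W} {H : SimpleGraph V} {s : W → Bool} {t : V → Bool}
    (hB : GSid B s) (hH : GSid H t) :
    GSid ((H □ B).induce {p | t p.1 = false ∨ s p.2 = false}) fun p => xor (t p.1.1) (s p.1.2) := by
  classical
  have hφ : ∀ w w', (if s w' = false then some w' else none) = some w → s w = s w' := by
    intro w w' h
    split_ifs at h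
    rw [Option.some.inj h]
  have key := layer_gsid (φ := fun w => if s w = false then some w else none) hφ hB hH
  refine (gsid_restrict (Function.Embedding.subtype _) ?_ ?_ fun _ => rfl).1 key
  · rintro ⟨⟨x, w⟩, h⟩ ⟨⟨y, w'⟩, h'⟩
    simp only [Function.Embedding.coe_subtype, SimpleGraph.comap_adj, SimpleGraph.boxProd_adj,
      layer, Set.mem_ofPred_eq] at h h' ⊢
    constructor
    · rintro (⟨h1, h2, h3⟩ | ⟨h1, h2, h3, h4⟩ | ⟨h1, h2, h3, h4⟩)
      · exact Or.inr ⟨h3, h1⟩
      · split_ifs at h4
        exact Or.inl ⟨h1, (Option.some.inj h4).symm⟩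
      · split_ifs at h4
        exact Or.inl ⟨h1, Option.some.inj h4⟩
    · rintro (⟨h1, h2⟩ | ⟨h1, h2⟩)
      · have h4 := hH.1 _ _ h1
        rcases (t x).eq_false_or_eq_true with hx | hx
        · have hs : s w = false := by
            rcases h with h | h
            · rw [hx] at h
              simp at h
            · exact h
          refine Or.inr (Or.inr ⟨h1, hx, ?_, ?_⟩)
          · rcases (t y).eq_false_or_eq_true with hy | hy
            · exact absurd (hx.trans hy.symm) h4
            · exact hy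
          · rw [if_pos hs, h2]
        · have hy : t y = true := by
            rcases (t y).eq_false_or_eq_true with hy | hy
            · exact hy
            · exact absurd (hx.trans hy.symm) h4
          have hs : s w' = false := by
            rcases h' with h | h
            · rw [hy] at h
              simp at h
            · exact h
          refine Or.inr (Or.inl ⟨h1, hx, hy, ?_⟩)
          rw [if_pos hs, h2]
      · refine Or.inl ⟨h2, ?_, h1⟩
        subst h2
        rcases (t x).eq_false_or_eq_true with hx | hx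
        · have h4 := hB.1 _ _ h1
          rw [hx] at h h'
          exact absurd ((h.resolve_left (by simp)).trans (h'.resolve_left (by simp)).symm) h4
        · exact hx
  · rintro ⟨x, w⟩ ⟨y, w'⟩ (⟨h1, h2, h3⟩ | ⟨h1, h2, h3, h4⟩ | ⟨h1, h2, h3, h4⟩)
    · exact ⟨⟨(x, w), Or.inl h2⟩, rfl⟩
    · exact ⟨⟨(x, w), Or.inl h2⟩, rfl⟩
    · simp only at h4
      split_ifs at h4 with h5
      exact ⟨⟨(x, w), Or.inr h5⟩, rfl⟩

end Vale.Agent.P050.H98
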