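import Vale.Agent.P050.Lev.KSid

/-!
Definitions for the replacement theorem.
-/

namespace Vale.Agent.P050.H98

open Vale.Agent.P050

/-- `H` is a graph with the 2-colouring `t`. Each vertex `x` of `H` of the colour `false` is
replaced by a copy `{x} × W` of the graph `B`, each vertex `y` of the colour `true` by the
independent set `{y} × J`; for each edge `xy` of `H`, the vertex `(y, j)` is joined to the vertex
`(x, φ j)` of the copy of `B` over `x`. -/
def repl {V W J : Type} (B : SimpleGraph W) (H : SimpleGraph V) (t : V → Bool) (φ : J → W) :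
    SimpleGraph (({x : V // t x = false} × W) ⊕ ({y : V // t y = true} × J)) where
  Adj
    | .inl p, .inl q => p.1 = q.1 ∧ B.Adj p.2 q.2
    | .inl p, .inr q => H.Adj p.1 q.1 ∧ φ q.2 = p.2
    | .inr p, .inl q => H.Adj q.1 p.1 ∧ φ p.2 = q.2
    | .inr _, .inr _ => False
  symm := ⟨by
    rintro (p | p) (q | q) h
    · exact ⟨h.1.symm, h.2.symm⟩
    · exact h
    · exact h
    · exact h⟩
  loopless := ⟨by
    rintro (p | p) h
    · exact h.2.ne rfl
    · exact h⟩

/-- the 2-colouring of `repl B H t φ`: the copies of `B` are coloured as `B`, and the vertices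
`(y, j)` have the colour that `φ j` does not have -/
def replSide {V W J : Type} (s : W → Bool) (t : V → Bool) (φ : J → W) :
    ({x : V // t x = false} × W) ⊕ ({y : V // t y = true} × J) → Bool
  | .inl p => s p.2
  | .inr p => !s (φ p.2)

/-- The place of the vertex `x` of `D` in the copy of `D` at the pair `(a, b)`: the marked vertices
`false`, `true` of `D` are put on the vertices `a` of the first and `b` of the second graph. -/
def place {V₁ V₂ P : Type} {α : V₁ → Prop} {β : V₂ → Prop} (c : {v // α v} × {v // β v}) :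
    Bool ⊕ P → V₁ ⊕ (V₂ ⊕ (({v // α v} × {v // β v}) × P))
  | .inl false => .inl c.1.1
  | .inl true => .inr (.inl c.2.1)
  | .inr p => .inr (.inr (c, p))

/-- Disjoint copies of the graphs `H₁` and `H₂`, and for each pair consisting of a vertex `a` of
`H₁` of the colour `s₁ a = b₁` and a vertex `b` of `H₂` of the colour `s₂ b = b₂` a new copy of
the graph `D`, whose marked vertices `false`, `true` are identified with `a`, `b`. -/
def joinBy {V₁ V₂ P : Type} (H₁ : SimpleGraph V₁) (H₂ : SimpleGraph V₂)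
    (D : SimpleGraph (Bool ⊕ P)) (s₁ : V₁ → Bool) (s₂ : V₂ → Bool) (b₁ b₂ : Bool) :
    SimpleGraph (V₁ ⊕ (V₂ ⊕ (({v // s₁ v = b₁} × {v // s₂ v = b₂}) × P))) where
  Adj u v := (∃ x y, H₁.Adj x y ∧ u = .inl x ∧ v = .inl y) ∨
    (∃ x y, H₂.Adj x y ∧ u = .inr (.inl x) ∧ v = .inr (.inl y)) ∨
    ∃ c x y, D.Adj x y ∧ u = place c x ∧ v = place c y
  symm := ⟨by
    rintro u v (⟨x, y, h, h1, h2⟩ | ⟨x, y, h, h1, h2⟩ | ⟨c, x, y, h, h1, h2⟩)
    · exact Or.inl ⟨y, x, h.symm, h2, h1⟩
    · exact Or.inr (Or.inl ⟨y, x, h.symm, h2, h1⟩)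
    · exact Or.inr (Or.inr ⟨c, y, x, h.symm, h2, h1⟩)⟩
  loopless := ⟨by
    rintro u (⟨x, y, h, h1, h2⟩ | ⟨x, y, h, h1, h2⟩ | ⟨c, x, y, h, h1, h2⟩)
    · exact h.ne (Sum.inl_injective (h1.symm.trans h2))
    · exact h.ne (Sum.inl_injective (Sum.inr_injective (h1.symm.trans h2)))
    · refine h.ne ?_
      rw [h1] at h2
      rcases x with (_ | _) | x <;> rcases y with (_ | _) | y <;> simp_all [place]⟩

/-- the 2-colouring of `joinBy`: `H₁`, `H₂` and the copies of `D` keep their colours -/
def joinBySide {V₁ V₂ P : Type} (s₁ : V₁ → Bool) (s₂ : V₂ → Bool) (b₁ b₂ : Bool)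
    (δ : Bool ⊕ P → Bool) : V₁ ⊕ (V₂ ⊕ (({v // s₁ v = b₁} × {v // s₂ v = b₂}) × P)) → Bool
  | .inl v => s₁ v
  | .inr (.inl v) => s₂ v
  | .inr (.inr q) => δ (.inr q.2)

/-- the 1-subdivision of `F`: each edge is replaced by a path with two edges, the vertices are the
vertices and the edges of `F` -/
def sub1 {V : Type} (F : SimpleGraph V) : SimpleGraph (V ⊕ F.edgeSet) where
  Adj
    | .inl v, .inr e => v ∈ e.1
    | .inr e, .inl v => v ∈ e.1
    | .inl _, .inl _ => False
    | .inr _, .inr _ => False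
  symm := ⟨by rintro (p | p) (q | q) h <;> exact h⟩
  loopless := ⟨by rintro (p | p) h <;> exact h⟩

/-- The 1-subdivision of the graph `F` (on a finite set) satisfies the two-sided Sidorenko
inequality; the side `false` consists of the vertices of `F`, the side `true` of its edges. -/
def SubSid {V : Type} (F : SimpleGraph V) : Prop :=
  ∀ (_ : Fintype (V ⊕ F.edgeSet)) (_ : DecidableEq (V ⊕ F.edgeSet)),
    Lev.GSid (sub1 F) Sum.isRight

end Vale.Agent.P050.H98
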