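import Vale.Agent.P050.H149.Red
import Vale.Agent.P050.Lev.Final

/-!
Isolated vertices do not matter.
-/

set_option linter.unusedSectionVars false

namespace Vale.Agent.P050.H98

open Finset Vale.Agent.P050.Lev Vale.Agent.P050.H149

variable {V V₀ : Type} [Fintype V] [DecidableEq V] [Fintype V₀] [DecidableEq V₀]

theorem side_of_mem {G : SimpleGraph V} {s : V → Bool} {e : V × V} (he : e ∈ sideEdges G s) :
    s e.1 = false ∧ s e.2 = true := by
  classical
  unfold sideEdges at he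
  exact (Finset.mem_filter.1 he).2.2

theorem sum_restrict {U : Type} [Fintype U] (ι : V₀ → V) (hι : Function.Injective ι)
    (q : V → U → ℝ) (F : (V₀ → U) → ℝ) (hq : ∀ v, v ∉ Set.range ι → ∑ x, q v x = 1) :
    ∑ z : V → U, (∏ v, q v (z v)) * F (fun a => z (ι a)) =
      ∑ z : V₀ → U, (∏ a, q (ι a) (z a)) * F z := by
  classical
  let e : V₀ ⊕ {v // v ∉ Set.range ι} ≃ V :=
    (Equiv.sumCongr (Equiv.ofInjective ι hι) (Equiv.refl _)).trans (Equiv.Set.sumCompl (Set.range ι))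
  have e1 : ∀ a, e (Sum.inl a) = ι a := fun a => rfl
  have e2 : ∀ r, e (Sum.inr r) = r.1 := fun r => rfl
  rw [← Equiv.sum_comp (e.arrowCongr (Equiv.refl U)),
    ← Equiv.sum_comp (Equiv.sumArrowEquivProdArrow V₀ {v // v ∉ Set.range ι} U).symm,
    Fintype.sum_prod_type]
  refine Finset.sum_congr rfl fun z _ => ?_
  have h1 : ∀ r : {v // v ∉ Set.range ι} → U,
      (∏ v, q v ((e.arrowCongr (Equiv.refl U))
        ((Equiv.sumArrowEquivProdArrow V₀ {v // v ∉ Set.range ι} U).symm (z, r)) v)) =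
      (∏ a, q (ι a) (z a)) * ∏ b, q b.1 (r b) := by
    intro r
    have hval : ∀ (g : V₀ ⊕ {v // v ∉ Set.range ι} → U) x,
        (e.arrowCongr (Equiv.refl U)) g (e x) = g x := fun g x => by simp [Equiv.arrowCongr]
    rw [← Equiv.prod_comp e, Fintype.prod_sum_type]
    simp only [hval]
    rfl
  have h2 : ∀ r : {v // v ∉ Set.range ι} → U,
      (fun a => (e.arrowCongr (Equiv.refl U))
        ((Equiv.sumArrowEquivProdArrow V₀ {v // v ∉ Set.range ι} U).symm (z, r)) (ι a)) = z := by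
    intro r
    funext a
    rw [← e1]
    simp [Equiv.arrowCongr]
  simp_rw [h1, h2]
  rw [← Finset.sum_mul, ← Finset.mul_sum]
  have h3 : ∑ r : {v // v ∉ Set.range ι} → U, ∏ b, q b.1 (r b) = 1 := by
    have h4 := Finset.prod_univ_sum (fun _ : {v // v ∉ Set.range ι} => (Finset.univ : Finset U))
      (fun b x => q b.1 x)
    rw [Fintype.piFinset_univ] at h4
    rw [← h4]
    exact Finset.prod_eq_one fun b _ => hq _ b.2
  rw [h3, mul_one]

theorem sideEdges_map {G : SimpleGraph V} {G₀ : SimpleGraph V₀} {s : V → Bool} {s₀ : V₀ → Bool}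
    (ι : V₀ ↪ V) (hadj : ∀ a b, G.Adj (ι a) (ι b) ↔ G₀.Adj a b)
    (hcov : ∀ u v, G.Adj u v → u ∈ Set.range ι) (hs : ∀ a, s (ι a) = s₀ a) :
    sideEdges G s = (sideEdges G₀ s₀).map (ι.prodMap ι) := by
  classical
  ext ⟨u, v⟩
  simp only [sideEdges, Finset.mem_map, Finset.mem_filter, Finset.mem_univ, true_and,
    Function.Embedding.coe_prodMap, Prod.exists, Prod.map_apply, Prod.mk.injEq]
  constructor
  · rintro ⟨h, h1, h2⟩
    obtain ⟨a, rfl⟩ := hcov u v h
    obtain ⟨b, rfl⟩ := hcov v (ι a) h.symm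
    exact ⟨a, b, ⟨(hadj a b).1 h, by rw [← hs]; exact h1, by rw [← hs]; exact h2⟩, rfl, rfl⟩
  · rintro ⟨a, b, ⟨h, h1, h2⟩, rfl, rfl⟩
    exact ⟨(hadj a b).2 h, by rw [hs]; exact h1, by rw [hs]; exact h2⟩

theorem dens_restrict {G : SimpleGraph V} {G₀ : SimpleGraph V₀} {s : V → Bool} {s₀ : V₀ → Bool}
    (ι : V₀ ↪ V) (hadj : ∀ a b, G.Adj (ι a) (ι b) ↔ G₀.Adj a b)
    (hcov : ∀ u v, G.Adj u v → u ∈ Set.range ι) (hs : ∀ a, s (ι a) = s₀ a)
    {U : Type} [Fintype U] (m : Bool → U → ℝ) (K : U → U → ℝ) (m1 : ∀ b, ∑ x, m b x = 1) :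
    ∑ z : V → U, (∏ v, m (s v) (z v)) * ∏ e ∈ sideEdges G s, K (z e.1) (z e.2) =
      ∑ z : V₀ → U, (∏ v, m (s₀ v) (z v)) * ∏ e ∈ sideEdges G₀ s₀, K (z e.1) (z e.2) := by
  rw [sideEdges_map ι hadj hcov hs]
  simp_rw [Finset.prod_map]
  have h := sum_restrict (U := U) ι ι.injective (fun v => m (s v))
    (fun z => ∏ e ∈ sideEdges G₀ s₀, K (z e.1) (z e.2)) fun v _ => m1 _
  refine Eq.trans ?_ (h.trans ?_)
  · rfl
  · simp only [hs]

theorem gsid_restrict {G : SimpleGraph V} {G₀ : SimpleGraph V₀} {s : V → Bool} {s₀ : V₀ → Bool}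
    (ι : V₀ ↪ V) (hadj : ∀ a b, G.Adj (ι a) (ι b) ↔ G₀.Adj a b)
    (hcov : ∀ u v, G.Adj u v → u ∈ Set.range ι) (hs : ∀ a, s (ι a) = s₀ a) :
    GSid G s ↔ GSid G₀ s₀ := by
  have hc : (sideEdges G s).card = (sideEdges G₀ s₀).card := by
    rw [sideEdges_map ι hadj hcov hs, Finset.card_map]
  constructor
  · rintro ⟨h1, h2, h3⟩
    refine ⟨fun a b h => ?_, fun e he => ?_, fun U _ m K m0 m1 hK => ?_⟩
    · rw [← hs, ← hs]
      exact h1 _ _ ((hadj a b).2 h)
    · exact side_of_mem he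
    · rw [← dens_restrict ι hadj hcov hs m K m1, ← hc]
      exact h3 U m K m0 m1 hK
  · rintro ⟨h1, h2, h3⟩
    refine ⟨fun u v h => ?_, fun e he => ?_, fun U _ m K m0 m1 hK => ?_⟩
    · obtain ⟨a, rfl⟩ := hcov u v h
      obtain ⟨b, rfl⟩ := hcov v (ι a) h.symm
      rw [hs, hs]
      exact h1 _ _ ((hadj a b).1 h)
    · exact side_of_mem he
    · rw [dens_restrict ι hadj hcov hs m K m1, hc]
      exact h3 U m K m0 m1 hK

/-- The biregular case suffices, also if there are isolated vertices. -/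
theorem gsid_of_bireg {G : SimpleGraph V} {s : V → Bool} (hs : ∀ u v, G.Adj u v → s u ≠ s v)
    (h : BiregKSid (sideEdges G s) s) : GSid G s := by
  classical
  let P := {v : V // ∃ w, G.Adj v w}
  let ι : P ↪ V := Function.Embedding.subtype _
  let G₀ : SimpleGraph P := G.comap Subtype.val
  have hadj : ∀ a b, G.Adj (ι a) (ι b) ↔ G₀.Adj a b := fun a b => Iff.rfl
  have hcov : ∀ u v, G.Adj u v → u ∈ Set.range ι := fun u v huv => ⟨⟨u, v, huv⟩, rfl⟩
  refine (gsid_restrict (G₀ := G₀) (s₀ := fun a : P => s a.1) ι hadj hcov fun _ => rfl).2 ?_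
  refine ⟨fun a b hab => hs _ _ hab, ksid_of_bireg ?_ ?_ ?_⟩
  · intro e he
    exact side_of_mem he
  · rintro ⟨v, w, hvw⟩
    have hne := hs _ _ hvw
    rcases (s v).eq_false_or_eq_true with hv | hv
    · have hw : s w = false := by
        rcases (s w).eq_false_or_eq_true with h' | h'
        · exact absurd (hv.trans h'.symm) hne
        · exact h'
      refine ⟨(⟨w, v, hvw.symm⟩, ⟨v, w, hvw⟩), ?_, Or.inr rfl⟩
      unfold sideEdges
      exact Finset.mem_filter.2 ⟨Finset.mem_univ _, hvw.symm, hw, hv⟩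
    · have hw : s w = true := by
        rcases (s w).eq_false_or_eq_true with h' | h'
        · exact h'
        · exact absurd (hv.trans h'.symm) hne
      refine ⟨(⟨v, w, hvw⟩, ⟨w, v, hvw.symm⟩), ?_, Or.inl rfl⟩
      unfold sideEdges
      exact Finset.mem_filter.2 ⟨Finset.mem_univ _, hvw, hv, hw⟩
  · intro U _ m K m0 m1 hK row col
    rw [← dens_restrict (G₀ := G₀) (s₀ := fun a : P => s a.1) ι hadj hcov (fun _ => rfl) m K m1]
    exact h U m K m0 m1 hK row col

end Vale.Agent.P050.H98
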