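import Vale.Agent.P050.H98.Main

/-!
The two-sided Sidorenko inequality with weights on the vertices of one side, for biregular kernels,
and the inequality for joined graphs.
-/

set_option linter.unusedSectionVars false

namespace Vale.Agent.P050.H98

open Finset Vale.Agent.P050.Lev Vale.Agent.P050.H149

/-- the weight of a map -/
noncomputable def wgt {V U : Type} [Fintype V] [DecidableEq V] (H : SimpleGraph V) (s : V → Bool)
    (m : Bool → U → ℝ) (K : U → U → ℝ) (z : V → U) : ℝ :=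
  (∏ v, m (s v) (z v)) * ∏ e ∈ sideEdges H s, K (z e.1) (z e.2)

theorem wgt_nonneg {V U : Type} [Fintype V] [DecidableEq V] (H : SimpleGraph V) (s : V → Bool)
    {m : Bool → U → ℝ} {K : U → U → ℝ} (m0 : ∀ b x, 0 ≤ m b x) (hK : ∀ x y, 0 ≤ K x y)
    (z : V → U) : 0 ≤ wgt H s m K z :=
  mul_nonneg (Finset.prod_nonneg fun _ _ => m0 _ _) (Finset.prod_nonneg fun _ _ => hK _ _)

/-- biregular kernels -/
structure BR {U : Type} [Fintype U] (m : Bool → U → ℝ) (K : U → U → ℝ) : Prop where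
  m0 : ∀ b x, 0 ≤ m b x
  m1 : ∀ b, ∑ x, m b x = 1
  hK : ∀ x y, 0 ≤ K x y
  row : ∀ x, m false x ≠ 0 → ∑ y, m true y * K x y = 1
  col : ∀ y, m true y ≠ 0 → ∑ x, m false x * K x y = 1

theorem prod_ite_sub {V : Type} [Fintype V] (s : V → Bool) (b : Bool) (g : V → ℝ) :
    (∏ v, if s v = b then g v else 1) = ∏ a : {v // s v = b}, g a := by
  rw [← Finset.prod_filter]
  exact Finset.prod_subtype _ (by simp) _

theorem mean_row {U : Type} [Fintype U] {m : Bool → U → ℝ} {K : U → U → ℝ} (h : BR m K)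
    (ρ : U → ℝ) : ∑ x, ∑ y, (m false x * ρ x) * m true y * K x y = ∑ x, m false x * ρ x := by
  refine Finset.sum_congr rfl fun x _ => ?_
  by_cases hx : m false x = 0
  · simp [hx]
  · calc ∑ y, (m false x * ρ x) * m true y * K x y =
        (m false x * ρ x) * ∑ y, m true y * K x y := by
          rw [Finset.mul_sum]
          exact Finset.sum_congr rfl fun y _ => by ring
      _ = m false x * ρ x := by rw [h.row x hx, mul_one]

theorem mean_col {U : Type} [Fintype U] {m : Bool → U → ℝ} {K : U → U → ℝ} (h : BR m K)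
    (ρ : U → ℝ) : ∑ x, ∑ y, m false x * (m true y * ρ y) * K x y = ∑ y, m true y * ρ y := by
  rw [Finset.sum_comm]
  refine Finset.sum_congr rfl fun y _ => ?_
  by_cases hy : m true y = 0
  · simp [hy]
  · calc ∑ x, m false x * (m true y * ρ y) * K x y =
        (m true y * ρ y) * ∑ x, m false x * K x y := by
          rw [Finset.mul_sum]
          exact Finset.sum_congr rfl fun x _ => by ring
      _ = m true y * ρ y := by rw [h.col y hy, mul_one]

/-- weights on the vertices of the side `b` -/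
theorem weighted {V : Type} [Fintype V] [DecidableEq V] {H : SimpleGraph V} {s : V → Bool}
    (hH : KSid (sideEdges H s) s) {U : Type} [Fintype U] {m : Bool → U → ℝ} {K : U → U → ℝ}
    (h : BR m K) (b : Bool) (ρ : U → ℝ) (hρ : ∀ x, 0 ≤ ρ x) :
    (∑ x, m b x * ρ x) ^ Fintype.card {v // s v = b} ≤
      ∑ z : V → U, wgt H s m K z * ∏ a : {v // s v = b}, ρ (z a) := by
  classical
  set R := ∑ x, m b x * ρ x with hR
  have hR0 : 0 ≤ R := Finset.sum_nonneg fun x _ => mul_nonneg (h.m0 _ _) (hρ x)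
  have hterm : ∀ z : V → U, 0 ≤ wgt H s m K z * ∏ a : {v // s v = b}, ρ (z a) := fun z =>
    mul_nonneg (wgt_nonneg H s h.m0 h.hK z) (Finset.prod_nonneg fun a _ => hρ _)
  rcases hR0.eq_or_lt with hR' | hRpos
  · rcases Nat.eq_zero_or_pos (Fintype.card {v // s v = b}) with hc | hc
    · rw [hc, pow_zero]
      have hemp : IsEmpty {v // s v = b} := Fintype.card_eq_zero_iff.1 hc
      have h2 := hH.2 U m K h.m0 h.m1 h.hK
      have h3 : ∑ x, ∑ y, m false x * m true y * K x y = 1 := by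
        have := mean_row h fun _ => 1
        simp only [mul_one] at this
        rw [this, h.m1]
      rw [h3, one_pow] at h2
      refine h2.trans (le_of_eq ?_)
      refine Finset.sum_congr rfl fun z _ => ?_
      have h4 : ∏ a : {v // s v = b}, ρ (z a) = 1 := by
        rw [Finset.univ_eq_empty, Finset.prod_empty]
      rw [h4, mul_one]
      rfl
    · rw [← hR', zero_pow hc.ne']
      exact Finset.sum_nonneg fun z _ => hterm z
  · set m' : Bool → U → ℝ := fun c x => m c x * (if c = b then ρ x / R else 1) with hm'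
    have m'0 : ∀ c x, 0 ≤ m' c x := by
      intro c x
      simp only [hm']
      split_ifs
      · exact mul_nonneg (h.m0 _ _) (div_nonneg (hρ _) hR0)
      · exact mul_nonneg (h.m0 _ _) zero_le_one
    have m'1 : ∀ c, ∑ x, m' c x = 1 := by
      intro c
      simp only [hm']
      split_ifs with hc
      · subst hc
        calc ∑ x, m c x * (ρ x / R) = (∑ x, m c x * ρ x) / R := by
              rw [Finset.sum_div]
              exact Finset.sum_congr rfl fun x _ => by ring
          _ = 1 := div_self hRpos.ne'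
      · simp [h.m1]
    have hmean : ∑ x, ∑ y, m' false x * m' true y * K x y = 1 := by
      cases b
      · have := mean_row h fun x => ρ x / R
        have e : ∑ x, ∑ y, m' false x * m' true y * K x y =
            ∑ x, ∑ y, (m false x * (ρ x / R)) * m true y * K x y := by
          refine Finset.sum_congr rfl fun x _ => Finset.sum_congr rfl fun y _ => ?_
          simp [hm']
        rw [e, this]
        have := m'1 false
        simpa [hm'] using this
      · have := mean_col h fun x => ρ x / R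
        have e : ∑ x, ∑ y, m' false x * m' true y * K x y =
            ∑ x, ∑ y, m false x * (m true y * (ρ y / R)) * K x y := by
          refine Finset.sum_congr rfl fun x _ => Finset.sum_congr rfl fun y _ => ?_
          simp [hm']
        rw [e, this]
        have := m'1 true
        simpa [hm'] using this
    have h2 := hH.2 U m' K m'0 m'1 h.hK
    rw [hmean, one_pow] at h2
    have h3 : ∀ z : V → U, (∏ v, m' (s v) (z v)) * ∏ e ∈ sideEdges H s, K (z e.1) (z e.2) =
        (wgt H s m K z * ∏ a : {v // s v = b}, ρ (z a)) / R ^ Fintype.card {v // s v = b} := by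
      intro z
      simp only [hm', wgt]
      rw [Finset.prod_mul_distrib, prod_ite_sub s b fun v => ρ (z v) / R, Finset.prod_div_distrib,
        Finset.prod_const, Finset.card_univ]
      ring
    simp_rw [h3] at h2
    rw [← Finset.sum_div, one_le_div (pow_pos hRpos _)] at h2
    exact h2

theorem jensen {X : Type} [Fintype X] (w f : X → ℝ) (hw : ∀ x, 0 ≤ w x) (hw1 : ∑ x, w x = 1)
    (hf : ∀ x, 0 ≤ f x) (n : ℕ) : (∑ x, w x * f x) ^ n ≤ ∑ x, w x * f x ^ n :=
  Real.pow_arith_mean_le_arith_mean_pow _ w f (fun i _ => hw i) hw1 (fun i _ => hf i) n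

theorem pow_sum_pi {U I : Type} [Fintype U] [Fintype I] [DecidableEq I] (g : U → ℝ) :
    (∑ x, g x) ^ Fintype.card I = ∑ y : I → U, ∏ i, g (y i) := by
  rw [sum_prod_pi fun (_ : I) => g, Finset.prod_const, Finset.card_univ]

/-- **The inequality for joined graphs.** -/
theorem join_ineq {V₁ V₂ : Type} [Fintype V₁] [DecidableEq V₁] [Fintype V₂] [DecidableEq V₂]
    {H₁ : SimpleGraph V₁} {s₁ : V₁ → Bool} {H₂ : SimpleGraph V₂} {s₂ : V₂ → Bool}
    (h₁ : KSid (sideEdges H₁ s₁) s₁) (h₂ : KSid (sideEdges H₂ s₂) s₂) {U : Type} [Fintype U]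
    {m : Bool → U → ℝ} {K : U → U → ℝ} (h : BR m K) (b₁ b₂ : Bool) (G : U → U → ℝ)
    (hG : ∀ x y, 0 ≤ G x y) (hG1 : 1 ≤ ∑ x, m b₁ x * ∑ y, m b₂ y * G x y) :
    1 ≤ ∑ z₁ : V₁ → U, wgt H₁ s₁ m K z₁ * ∑ z₂ : V₂ → U, wgt H₂ s₂ m K z₂ *
      ∏ b : {v // s₂ v = b₂}, ∏ a : {v // s₁ v = b₁}, G (z₁ a) (z₂ b) := by
  classical
  set A := {v // s₁ v = b₁}
  set B := {v // s₂ v = b₂}
  have hw1 : ∑ y : B → U, ∏ b, m b₂ (y b) = 1 := by
    rw [← pow_sum_pi (m b₂), h.m1, one_pow]
  have hw0 : ∀ y : B → U, 0 ≤ ∏ b, m b₂ (y b) := fun y => Finset.prod_nonneg fun b _ => h.m0 _ _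
  -- the first graph
  have s1 : ∑ z₁ : V₁ → U, wgt H₁ s₁ m K z₁ *
        (∑ y, m b₂ y * ∏ a : A, G (z₁ a) y) ^ Fintype.card B ≤
      ∑ z₁ : V₁ → U, wgt H₁ s₁ m K z₁ * ∑ z₂ : V₂ → U, wgt H₂ s₂ m K z₂ *
        ∏ b : B, ∏ a : A, G (z₁ a) (z₂ b) := by
    refine Finset.sum_le_sum fun z₁ _ => mul_le_mul_of_nonneg_left ?_
      (wgt_nonneg H₁ s₁ h.m0 h.hK z₁)
    exact weighted h₂ h b₂ (fun y => ∏ a : A, G (z₁ a) y)
      fun y => Finset.prod_nonneg fun a _ => hG _ _
  have s2 : ∑ z₁ : V₁ → U, wgt H₁ s₁ m K z₁ *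
        (∑ y, m b₂ y * ∏ a : A, G (z₁ a) y) ^ Fintype.card B =
      ∑ y : B → U, (∏ b, m b₂ (y b)) * ∑ z₁ : V₁ → U, wgt H₁ s₁ m K z₁ *
        ∏ a : A, ∏ b : B, G (z₁ a) (y b) := by
    simp_rw [pow_sum_pi (I := B), Finset.mul_sum]
    rw [Finset.sum_comm]
    refine Finset.sum_congr rfl fun y _ => Finset.sum_congr rfl fun z₁ _ => ?_
    rw [Finset.prod_mul_distrib, Finset.prod_comm (s := (Finset.univ : Finset B))]
    ring
  have s3 : ∑ y : B → U, (∏ b, m b₂ (y b)) *
        (∑ x, m b₁ x * ∏ b : B, G x (y b)) ^ Fintype.card A ≤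
      ∑ y : B → U, (∏ b, m b₂ (y b)) * ∑ z₁ : V₁ → U, wgt H₁ s₁ m K z₁ *
        ∏ a : A, ∏ b : B, G (z₁ a) (y b) := by
    refine Finset.sum_le_sum fun y _ => mul_le_mul_of_nonneg_left ?_ (hw0 y)
    exact weighted h₁ h b₁ (fun x => ∏ b : B, G x (y b))
      fun y => Finset.prod_nonneg fun a _ => hG _ _
  have s4 := jensen (fun y : B → U => ∏ b, m b₂ (y b))
    (fun y => ∑ x, m b₁ x * ∏ b : B, G x (y b)) hw0 hw1
    (fun y => Finset.sum_nonneg fun x _ => mul_nonneg (h.m0 _ _)
      (Finset.prod_nonneg fun b _ => hG _ _)) (Fintype.card A)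
  have s5 : ∑ y : B → U, (∏ b, m b₂ (y b)) * ∑ x, m b₁ x * ∏ b : B, G x (y b) =
      ∑ x, m b₁ x * (∑ y, m b₂ y * G x y) ^ Fintype.card B := by
    simp_rw [pow_sum_pi (I := B), Finset.mul_sum]
    rw [Finset.sum_comm]
    refine Finset.sum_congr rfl fun x _ => Finset.sum_congr rfl fun y _ => ?_
    rw [Finset.prod_mul_distrib]
    ring
  have s6 := jensen (m b₁) (fun x => ∑ y, m b₂ y * G x y) (h.m0 b₁) (h.m1 b₁)
    (fun x => Finset.sum_nonneg fun y _ => mul_nonneg (h.m0 _ _) (hG _ _)) (Fintype.card B)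
  have s7 : 1 ≤ ∑ x, m b₁ x * (∑ y, m b₂ y * G x y) ^ Fintype.card B :=
    (one_le_pow₀ hG1).trans s6
  calc 1 ≤ (∑ y : B → U, (∏ b, m b₂ (y b)) * ∑ x, m b₁ x * ∏ b : B, G x (y b)) ^
        Fintype.card A := by
        rw [s5]
        exact one_le_pow₀ s7
    _ ≤ _ := s4
    _ ≤ _ := s3
    _ = _ := s2.symm
    _ ≤ _ := s1

end Vale.Agent.P050.H98
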