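import Vale.Agent.P050.H98.Defs
import Vale.Agent.P050.H98.Iso
import Vale.Agent.P050.H98.Weighted

/-!
Joining the vertices of two graphs by copies of a third graph.
-/

set_option linter.unusedSectionVars false

namespace Vale.Agent.P050.H98

open Finset Vale.Agent.P050.Lev Vale.Agent.P050.H149

variable {V₁ V₂ P : Type} [Fintype V₁] [DecidableEq V₁] [Fintype V₂] [DecidableEq V₂] [Fintype P]
  [DecidableEq P] {H₁ : SimpleGraph V₁} {H₂ : SimpleGraph V₂} {D : SimpleGraph (Bool ⊕ P)}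
  {s₁ : V₁ → Bool} {s₂ : V₂ → Bool} {b₁ b₂ : Bool} {δ : Bool ⊕ P → Bool}

theorem place_inj {α : V₁ → Prop} {β : V₂ → Prop} {c c' : {v // α v} × {v // β v}}
    {x y x' y' : Bool ⊕ P} (hxy : x ≠ y) (h1 : place c x = place c' x')
    (h2 : place c y = place c' y') : c = c' ∧ x = x' ∧ y = y' := by
  obtain ⟨⟨a, ha⟩, ⟨b, hb⟩⟩ := c
  obtain ⟨⟨a', ha'⟩, ⟨b', hb'⟩⟩ := c'
  rcases x with (_ | _) | x <;> rcases x' with (_ | _) | x' <;>
    first
      | (simp [place] at h1; done)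
      | (rcases y with (_ | _) | y <;> rcases y' with (_ | _) | y' <;>
          first
            | (simp [place] at h2; done)
            | (simp_all [place]; done))

theorem place_side (h₁ : b₁ = δ (.inl false)) (h₂ : b₂ = δ (.inl true))
    (c : {v // s₁ v = b₁} × {v // s₂ v = b₂}) (x : Bool ⊕ P) :
    joinBySide s₁ s₂ b₁ b₂ δ (place c x) = δ x := by
  rcases x with (_ | _) | x
  · exact c.1.2.trans h₁
  · exact c.2.2.trans h₂
  · rfl

/-- the edges of the joined graph -/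
def em (α : V₁ → Prop) (β : V₂ → Prop) : ((V₁ × V₁) ⊕ ((V₂ × V₂) ⊕
      (({v // α v} × {v // β v}) × ((Bool ⊕ P) × (Bool ⊕ P))))) →
    (V₁ ⊕ (V₂ ⊕ (({v // α v} × {v // β v}) × P))) × (V₁ ⊕ (V₂ ⊕ (({v // α v} × {v // β v}) × P)))
  | .inl e => (.inl e.1, .inl e.2)
  | .inr (.inl e) => (.inr (.inl e.1), .inr (.inl e.2))
  | .inr (.inr q) => (place q.1 q.2.1, place q.1 q.2.2)

open Classical in
theorem sideEdges_joinBy (h₁ : b₁ = δ (.inl false)) (h₂ : b₂ = δ (.inl true)) :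
    sideEdges (joinBy H₁ H₂ D s₁ s₂ b₁ b₂) (joinBySide s₁ s₂ b₁ b₂ δ) =
      ((sideEdges H₁ s₁).disjSum ((sideEdges H₂ s₂).disjSum
        ((univ : Finset ({v // s₁ v = b₁} × {v // s₂ v = b₂})) ×ˢ sideEdges D δ))).image
        (em (fun v => s₁ v = b₁) fun v => s₂ v = b₂) := by
  classical
  ext ⟨u, v⟩
  simp only [sideEdges, Finset.mem_image, Finset.mem_filter, Finset.mem_univ, true_and]
  constructor
  · rintro ⟨⟨x, y, h, rfl, rfl⟩ | ⟨x, y, h, rfl, rfl⟩ | ⟨c, x, y, h, rfl, rfl⟩, h3, h4⟩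
    · refine ⟨.inl (x, y), ?_, rfl⟩
      rw [Finset.inl_mem_disjSum]
      exact Finset.mem_filter.2 ⟨Finset.mem_univ _, h, h3, h4⟩
    · refine ⟨.inr (.inl (x, y)), ?_, rfl⟩
      rw [Finset.inr_mem_disjSum, Finset.inl_mem_disjSum]
      exact Finset.mem_filter.2 ⟨Finset.mem_univ _, h, h3, h4⟩
    · rw [place_side h₁ h₂] at h3 h4
      refine ⟨.inr (.inr (c, (x, y))), ?_, rfl⟩
      rw [Finset.inr_mem_disjSum, Finset.inr_mem_disjSum, Finset.mem_product]
      exact ⟨Finset.mem_univ _, Finset.mem_filter.2 ⟨Finset.mem_univ _, h, h3, h4⟩⟩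
  · rintro ⟨e | e | ⟨c, e⟩, he, heq⟩
    · rw [Finset.inl_mem_disjSum, Finset.mem_filter] at he
      simp only [em, Prod.mk.injEq] at heq
      obtain ⟨rfl, rfl⟩ := heq
      exact ⟨Or.inl ⟨_, _, he.2.1, rfl, rfl⟩, he.2.2.1, he.2.2.2⟩
    · rw [Finset.inr_mem_disjSum, Finset.inl_mem_disjSum, Finset.mem_filter] at he
      simp only [em, Prod.mk.injEq] at heq
      obtain ⟨rfl, rfl⟩ := heq
      exact ⟨Or.inr (Or.inl ⟨_, _, he.2.1, rfl, rfl⟩), he.2.2.1, he.2.2.2⟩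
    · rw [Finset.inr_mem_disjSum, Finset.inr_mem_disjSum, Finset.mem_product, Finset.mem_filter]
        at he
      simp only [em, Prod.mk.injEq] at heq
      obtain ⟨rfl, rfl⟩ := heq
      refine ⟨Or.inr (Or.inr ⟨_, _, _, he.2.2.1, rfl, rfl⟩), ?_, ?_⟩
      · rw [place_side h₁ h₂]
        exact he.2.2.2.1
      · rw [place_side h₁ h₂]
        exact he.2.2.2.2

theorem em_injOn : Set.InjOn (em (V₁ := V₁) (V₂ := V₂) (P := P) (fun v => s₁ v = b₁)
    fun v => s₂ v = b₂) (((sideEdges H₁ s₁).disjSum ((sideEdges H₂ s₂).disjSum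
        ((univ : Finset ({v // s₁ v = b₁} × {v // s₂ v = b₂})) ×ˢ sideEdges D δ)) : Finset _) :
          Set _) := by
  classical
  have hne : ∀ e ∈ sideEdges D δ, e.1 ≠ e.2 := fun e he h => by
    have := side_of_mem he
    rw [h, this.2] at this
    simp at this
  rintro (e | e | ⟨c, e⟩) he (e' | e' | ⟨c', e'⟩) he' h <;>
    simp only [em, Prod.mk.injEq] at h
  · exact congrArg _ (Prod.ext (Sum.inl_injective h.1) (Sum.inl_injective h.2))
  · simp at h
  · rw [Finset.mem_coe, Finset.inr_mem_disjSum, Finset.inr_mem_disjSum, Finset.mem_product] at he'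
    have := hne _ he'.2
    obtain ⟨x, y⟩ := e'
    rcases x with (_ | _) | x <;> rcases y with (_ | _) | y <;> simp_all [place]
  · simp at h
  · exact congrArg _ (congrArg _ (Prod.ext (Sum.inl_injective (Sum.inr_injective h.1))
      (Sum.inl_injective (Sum.inr_injective h.2))))
  · rw [Finset.mem_coe, Finset.inr_mem_disjSum, Finset.inr_mem_disjSum, Finset.mem_product] at he'
    have := hne _ he'.2
    obtain ⟨x, y⟩ := e'
    rcases x with (_ | _) | x <;> rcases y with (_ | _) | y <;> simp_all [place]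
  · rw [Finset.mem_coe, Finset.inr_mem_disjSum, Finset.inr_mem_disjSum, Finset.mem_product] at he
    have := hne _ he.2
    obtain ⟨x, y⟩ := e
    rcases x with (_ | _) | x <;> rcases y with (_ | _) | y <;> simp_all [place]
  · rw [Finset.mem_coe, Finset.inr_mem_disjSum, Finset.inr_mem_disjSum, Finset.mem_product] at he
    have := hne _ he.2
    obtain ⟨x, y⟩ := e
    rcases x with (_ | _) | x <;> rcases y with (_ | _) | y <;> simp_all [place]
  · rw [Finset.mem_coe, Finset.inr_mem_disjSum, Finset.inr_mem_disjSum, Finset.mem_product] at he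
    have h3 := place_inj (hne _ he.2) h.1 h.2
    have h4 : e = e' := Prod.ext h3.2.1 h3.2.2
    rw [h3.1, h4]

/-- the value at a vertex of `D` -/
def ext {U P : Type} (x y : U) (h : P → U) : Bool ⊕ P → U
  | .inl false => x
  | .inl true => y
  | .inr p => h p

/-- the kernel given by the graph `D` with two marked vertices -/
noncomputable def dK {U : Type} [Fintype U] (D : SimpleGraph (Bool ⊕ P)) (δ : Bool ⊕ P → Bool)
    (m : Bool → U → ℝ) (K : U → U → ℝ) (x y : U) : ℝ :=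
  ∑ h : P → U, (∏ p, m (δ (.inr p)) (h p)) * ∏ e ∈ sideEdges D δ, K (ext x y h e.1) (ext x y h e.2)

theorem ext_place {U : Type} (z₁ : V₁ → U) (z₂ : V₂ → U)
    (h : ({v // s₁ v = b₁} × {v // s₂ v = b₂}) × P → U)
    (c : {v // s₁ v = b₁} × {v // s₂ v = b₂}) (x : Bool ⊕ P) :
    (Sum.elim z₁ (Sum.elim z₂ h)) (place c x) = ext (z₁ c.1.1) (z₂ c.2.1) (fun p => h (c, p)) x := by
  rcases x with (_ | _) | x <;> rfl

theorem dens_joinBy (h₁ : b₁ = δ (.inl false)) (h₂ : b₂ = δ (.inl true)) {U : Type} [Fintype U]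
    (m : Bool → U → ℝ) (K : U → U → ℝ) :
    ∑ z : V₁ ⊕ (V₂ ⊕ (({v // s₁ v = b₁} × {v // s₂ v = b₂}) × P)) → U,
        wgt (joinBy H₁ H₂ D s₁ s₂ b₁ b₂) (joinBySide s₁ s₂ b₁ b₂ δ) m K z =
      ∑ z₁ : V₁ → U, wgt H₁ s₁ m K z₁ * ∑ z₂ : V₂ → U, wgt H₂ s₂ m K z₂ *
        ∏ b : {v // s₂ v = b₂}, ∏ a : {v // s₁ v = b₁}, dK D δ m K (z₁ a) (z₂ b) := by
  classical
  rw [← Equiv.sum_comp (Equiv.sumArrowEquivProdArrow V₁ _ U).symm, Fintype.sum_prod_type]
  refine Finset.sum_congr rfl fun z₁ _ => ?_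
  rw [← Equiv.sum_comp (Equiv.sumArrowEquivProdArrow V₂ _ U).symm, Fintype.sum_prod_type,
    Finset.mul_sum]
  refine Finset.sum_congr rfl fun z₂ _ => ?_
  have e1 : ∀ h : ({v // s₁ v = b₁} × {v // s₂ v = b₂}) × P → U,
      (Equiv.sumArrowEquivProdArrow V₁ (V₂ ⊕ (({v // s₁ v = b₁} × {v // s₂ v = b₂}) × P)) U).symm
        (z₁, (Equiv.sumArrowEquivProdArrow V₂ (({v // s₁ v = b₁} × {v // s₂ v = b₂}) × P) U).symm
          (z₂, h)) = Sum.elim z₁ (Sum.elim z₂ h) := fun h => rfl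
  simp_rw [e1]
  have e2 : ∀ h : ({v // s₁ v = b₁} × {v // s₂ v = b₂}) × P → U,
      wgt (joinBy H₁ H₂ D s₁ s₂ b₁ b₂) (joinBySide s₁ s₂ b₁ b₂ δ) m K
        (Sum.elim z₁ (Sum.elim z₂ h)) = wgt H₁ s₁ m K z₁ * (wgt H₂ s₂ m K z₂ *
          ∏ c : {v // s₁ v = b₁} × {v // s₂ v = b₂}, ((∏ p, m (δ (.inr p)) (h (c, p))) *
            ∏ e ∈ sideEdges D δ, K (ext (z₁ c.1.1) (z₂ c.2.1) (fun p => h (c, p)) e.1)
              (ext (z₁ c.1.1) (z₂ c.2.1) (fun p => h (c, p)) e.2))) := by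
    intro h
    unfold wgt
    rw [sideEdges_joinBy h₁ h₂, Finset.prod_image em_injOn, Finset.prod_disjSum,
      Finset.prod_disjSum, Finset.prod_product, Fintype.prod_sum_type, Fintype.prod_sum_type,
      Fintype.prod_prod_type, Finset.prod_mul_distrib]
    simp only [em, joinBySide, Sum.elim_inl, Sum.elim_inr, ext_place]
    ring
  simp_rw [e2, ← Finset.mul_sum]
  congr 2
  rw [← Equiv.sum_comp (Equiv.curry ({v // s₁ v = b₁} × {v // s₂ v = b₂}) P U).symm]
  have e3 := sum_prod_pi (W := {v // s₁ v = b₁} × {v // s₂ v = b₂}) (U := P → U)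
    (fun c h => (∏ p, m (δ (.inr p)) (h p)) *
            ∏ e ∈ sideEdges D δ, K (ext (z₁ c.1.1) (z₂ c.2.1) h e.1)
              (ext (z₁ c.1.1) (z₂ c.2.1) h e.2))
  refine Eq.trans ?_ (e3.trans ?_)
  · rfl
  · rw [Fintype.prod_prod_type, Finset.prod_comm]
    rfl

theorem dens_D {U : Type} [Fintype U] (D : SimpleGraph (Bool ⊕ P)) (δ : Bool ⊕ P → Bool)
    (m : Bool → U → ℝ) (K : U → U → ℝ) :
    ∑ z : Bool ⊕ P → U, (∏ v, m (δ v) (z v)) * ∏ e ∈ sideEdges D δ, K (z e.1) (z e.2) =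
      ∑ x, m (δ (.inl false)) x * ∑ y, m (δ (.inl true)) y * dK D δ m K x y := by
  classical
  rw [← Equiv.sum_comp (Equiv.sumArrowEquivProdArrow Bool P U).symm, Fintype.sum_prod_type,
    ← Equiv.sum_comp (Equiv.boolArrowEquivProd U).symm, Fintype.sum_prod_type]
  refine Finset.sum_congr rfl fun x _ => ?_
  rw [Finset.mul_sum]
  refine Finset.sum_congr rfl fun y _ => ?_
  unfold dK
  rw [Finset.mul_sum, Finset.mul_sum]
  refine Finset.sum_congr rfl fun h _ => ?_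
  have e1 : ∀ v, (Equiv.sumArrowEquivProdArrow Bool P U).symm
      ((Equiv.boolArrowEquivProd U).symm (x, y), h) v = ext x y h v := by
    rintro ((_ | _) | v) <;> rfl
  simp only [e1]
  rw [Fintype.prod_sum_type, Fintype.prod_bool]
  simp only [ext]
  ring

/-- **Joining two graphs by copies of a third graph.** -/
theorem joinBy_gsid (hH₁ : GSid H₁ s₁) (hH₂ : GSid H₂ s₂) (hD : GSid D δ)
    (h₁ : b₁ = δ (.inl false)) (h₂ : b₂ = δ (.inl true)) :
    GSid (joinBy H₁ H₂ D s₁ s₂ b₁ b₂) (joinBySide s₁ s₂ b₁ b₂ δ) := by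
  classical
  refine gsid_of_bireg ?_ ?_
  · rintro u v (⟨x, y, h, rfl, rfl⟩ | ⟨x, y, h, rfl, rfl⟩ | ⟨c, x, y, h, rfl, rfl⟩)
    · exact hH₁.1 _ _ h
    · exact hH₂.1 _ _ h
    · rw [place_side h₁ h₂, place_side h₁ h₂]
      exact hD.1 _ _ h
  · intro U _ m K m0 m1 hK row col
    have hbr : BR m K := ⟨m0, m1, hK, row, col⟩
    have hp : ∑ x, ∑ y, m false x * m true y * K x y = 1 := by
      have := mean_row hbr fun _ => 1
      simp only [mul_one] at this
      rw [this, m1]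
    have hD1 : 1 ≤ ∑ x, m b₁ x * ∑ y, m b₂ y * dK D δ m K x y := by
      have h3 := hD.2.2 U m K m0 m1 hK
      rw [hp, one_pow, dens_D] at h3
      rw [h₁, h₂]
      exact h3
    have hdK : ∀ x y, 0 ≤ dK D δ m K x y := fun x y => Finset.sum_nonneg fun h _ =>
      mul_nonneg (Finset.prod_nonneg fun _ _ => m0 _ _) (Finset.prod_nonneg fun _ _ => hK _ _)
    have key := join_ineq hH₁.2 hH₂.2 hbr b₁ b₂ (dK D δ m K) hdK hD1
    rw [← dens_joinBy h₁ h₂ m K] at key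
    exact key

end Vale.Agent.P050.H98
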