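import Vale.Agent.P050.H149.Red
import Vale.Agent.P050.Lev.Final

/-!
Layered products: copies of a graph `B` over the vertices of one side of a graph `H`, joined
through the vertices over the other side.
-/

set_option linter.unusedSectionVars false

namespace Vale.Agent.P050.H98

open Finset Vale.Agent.P050.Lev Vale.Agent.P050.H149

variable {V W : Type} [Fintype V] [DecidableEq V] [Fintype W] [DecidableEq W]

open Classical in
theorem prod_sideEdges (G : SimpleGraph V) (s : V → Bool) (f : V → V → ℝ) :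
    ∏ e ∈ sideEdges G s, f e.1 e.2 =
      ∏ u, ∏ v, if G.Adj u v ∧ s u = false ∧ s v = true then f u v else 1 := by
  unfold sideEdges
  rw [Finset.prod_filter, Fintype.prod_prod_type]

/-- Copies of `B` over the vertices of `H` on the side `false`; a vertex `(y, w')` over a vertex `y`
on the side `true` is joined to `(x, w)`, for all neighbours `x` of `y`, where `φ w' = some w`. -/
def layer (B : SimpleGraph W) (H : SimpleGraph V) (t : V → Bool) (φ : W → Option W) :
    SimpleGraph (V × W) where
  Adj p q := (p.1 = q.1 ∧ t p.1 = false ∧ B.Adj p.2 q.2) ∨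
    (H.Adj p.1 q.1 ∧ t p.1 = false ∧ t q.1 = true ∧ φ q.2 = some p.2) ∨
    (H.Adj p.1 q.1 ∧ t p.1 = true ∧ t q.1 = false ∧ φ p.2 = some q.2)
  symm := ⟨by
    rintro p q (⟨h1, h2, h3⟩ | ⟨h1, h2, h3, h4⟩ | ⟨h1, h2, h3, h4⟩)
    · exact Or.inl ⟨h1.symm, h1 ▸ h2, h3.symm⟩
    · exact Or.inr (Or.inr ⟨h1.symm, h3, h2, h4⟩)
    · exact Or.inr (Or.inl ⟨h1.symm, h3, h2, h4⟩)⟩
  loopless := ⟨by
    rintro p (⟨h1, h2, h3⟩ | ⟨h1, h2, h3, h4⟩ | ⟨h1, h2, h3, h4⟩)
    · exact h3.ne rfl
    · exact h1.ne rfl
    · exact h1.ne rfl⟩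

/-- the kernel read from the side `b` -/
def kr {U : Type} (K : U → U → ℝ) (b : Bool) (x y : U) : ℝ := if b = false then K x y else K y x

/-- the kernel between the layers -/
noncomputable def crossK {U : Type} (s : W → Bool) (φ : W → Option W) (K : U → U → ℝ)
    (f g : W → U) : ℝ :=
  ∏ w', ∏ w, if φ w' = some w then kr K (s w) (f w) (g w') else 1

theorem prod_layer (B : SimpleGraph W) (H : SimpleGraph V) (s : W → Bool) (t : V → Bool)
    (φ : W → Option W) (hφ : ∀ w w', φ w' = some w → s w = s w') {U : Type} (K : U → U → ℝ)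
    (z : V × W → U) :
    ∏ e ∈ sideEdges (layer B H t φ) (fun p => xor (t p.1) (s p.2)), K (z e.1) (z e.2) =
      (∏ x, if t x = false then ∏ e ∈ sideEdges B s, K (z (x, e.1)) (z (x, e.2)) else 1) *
      ∏ e ∈ sideEdges H t, crossK s φ K (fun w => z (e.1, w)) (fun w => z (e.2, w)) := by
  classical
  rw [prod_sideEdges (layer B H t φ) _ fun p q => K (z p) (z q),
    prod_sideEdges H t fun x y => crossK s φ K (fun w => z (x, w)) (fun w => z (y, w))]
  have e1 : ∀ x, ∏ e ∈ sideEdges B s, K (z (x, e.1)) (z (x, e.2)) =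
      ∏ u, ∏ v, if B.Adj u v ∧ s u = false ∧ s v = true then K (z (x, u)) (z (x, v)) else 1 :=
    fun x => prod_sideEdges B s fun u v => K (z (x, u)) (z (x, v))
  simp only [e1]
  -- the three kinds of edges
  have h1 : ∀ p q : V × W, (if (layer B H t φ).Adj p q ∧ (xor (t p.1) (s p.2)) = false ∧
      (xor (t q.1) (s q.2)) = true then K (z p) (z q) else 1) =
      (if p.1 = q.1 ∧ t p.1 = false ∧ B.Adj p.2 q.2 ∧ s p.2 = false ∧ s q.2 = true then
        K (z p) (z q) else 1) *
      ((if H.Adj p.1 q.1 ∧ t p.1 = false ∧ t q.1 = true ∧ φ q.2 = some p.2 ∧ s p.2 = false then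
        K (z p) (z q) else 1) *
      (if H.Adj q.1 p.1 ∧ t q.1 = false ∧ t p.1 = true ∧ φ p.2 = some q.2 ∧ s q.2 = true then
        K (z p) (z q) else 1)) := by
    rintro ⟨x, w⟩ ⟨y, w'⟩
    simp only [layer]
    by_cases hxy : x = y
    · subst hxy
      rcases (t x).eq_false_or_eq_true with ht | ht <;> simp [ht]
    · by_cases hH : H.Adj x y
      · have hH' := hH.symm
        rcases (t x).eq_false_or_eq_true with htx | htx <;>
          rcases (t y).eq_false_or_eq_true with hty | hty
        · simp [hxy, hH, hH', htx, hty]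
        · by_cases h : φ w = some w'
          · have := hφ _ _ h
            rcases (s w).eq_false_or_eq_true with hs | hs <;>
              simp [hxy, hH, hH', htx, hty, h, this, hs]
          · simp [hxy, hH, hH', htx, hty, h]
        · by_cases h : φ w' = some w
          · have := hφ _ _ h
            rcases (s w).eq_false_or_eq_true with hs | hs <;>
              simp [hxy, hH, hH', htx, hty, h, ← this, hs]
          · simp [hxy, hH, hH', htx, hty, h]
        · simp [hxy, hH, hH', htx, hty]
      · have hH' : ¬ H.Adj y x := fun h => hH h.symm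
        simp [hxy, hH, hH']
  simp_rw [h1]
  simp_rw [Finset.prod_mul_distrib]
  congr 1
  · rw [Fintype.prod_prod_type]
    refine Finset.prod_congr rfl fun x _ => ?_
    have h2 : ∀ w, ∏ q : V × W, (if (x, w).1 = q.1 ∧ t (x, w).1 = false ∧ B.Adj (x, w).2 q.2 ∧
        s (x, w).2 = false ∧ s q.2 = true then K (z (x, w)) (z q) else 1) =
        ∏ w', if t x = false ∧ B.Adj w w' ∧ s w = false ∧ s w' = true then
          K (z (x, w)) (z (x, w')) else 1 := by
      intro w
      rw [Fintype.prod_prod_type, Finset.prod_eq_single x]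
      · simp
      · intro y _ hy
        exact Finset.prod_eq_one fun w' _ => if_neg fun h => hy h.1.symm
      · simp
    rw [Finset.prod_congr rfl fun w _ => h2 w]
    rcases (t x).eq_false_or_eq_true with ht | ht <;> simp [ht]
  · have h3 : ∏ p : V × W, ∏ q : V × W, (if H.Adj q.1 p.1 ∧ t q.1 = false ∧ t p.1 = true ∧
        φ p.2 = some q.2 ∧ s q.2 = true then K (z p) (z q) else 1) =
        ∏ p : V × W, ∏ q : V × W, (if H.Adj p.1 q.1 ∧ t p.1 = false ∧ t q.1 = true ∧
        φ q.2 = some p.2 ∧ s p.2 = true then K (z q) (z p) else 1) := Finset.prod_comm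
    rw [h3, ← Finset.prod_mul_distrib]
    simp_rw [← Finset.prod_mul_distrib]
    have h4 : ∀ p q : V × W, (if H.Adj p.1 q.1 ∧ t p.1 = false ∧ t q.1 = true ∧
        φ q.2 = some p.2 ∧ s p.2 = false then K (z p) (z q) else 1) *
        (if H.Adj p.1 q.1 ∧ t p.1 = false ∧ t q.1 = true ∧
        φ q.2 = some p.2 ∧ s p.2 = true then K (z q) (z p) else 1) =
        if H.Adj p.1 q.1 ∧ t p.1 = false ∧ t q.1 = true then
          (if φ q.2 = some p.2 then kr K (s p.2) (z p) (z q) else 1) else 1 := by
      rintro ⟨x, w⟩ ⟨y, w'⟩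
      by_cases h : H.Adj x y ∧ t x = false ∧ t y = true
      · by_cases h' : φ w' = some w
        · rcases (s w).eq_false_or_eq_true with hs | hs <;> simp [h, h', hs, kr]
        · simp [h']
      · have n1 : ¬ (H.Adj x y ∧ t x = false ∧ t y = true ∧ φ w' = some w ∧ s w = false) :=
          fun hh => h ⟨hh.1, hh.2.1, hh.2.2.1⟩
        have n2 : ¬ (H.Adj x y ∧ t x = false ∧ t y = true ∧ φ w' = some w ∧ s w = true) :=
          fun hh => h ⟨hh.1, hh.2.1, hh.2.2.1⟩
        simp only [if_neg h, if_neg n1, if_neg n2, mul_one]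
    simp_rw [h4]
    rw [Fintype.prod_prod_type]
    refine Finset.prod_congr rfl fun x _ => ?_
    simp_rw [Fintype.prod_prod_type]
    rw [Finset.prod_comm]
    refine Finset.prod_congr rfl fun y _ => ?_
    by_cases h : H.Adj x y ∧ t x = false ∧ t y = true
    · simp only [if_pos h, crossK]
      exact Finset.prod_comm
    · simp only [if_neg h, Finset.prod_const_one]

end Vale.Agent.P050.H98
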