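import Vale.Agent.P050.H98.Layer

/-!
The layered product of two graphs with the two-sided Sidorenko inequality satisfies it for
biregular kernels.
-/

set_option linter.unusedSectionVars false

namespace Vale.Agent.P050.H98

open Finset Vale.Agent.P050.Lev Vale.Agent.P050.H149

variable {V W : Type} [Fintype V] [DecidableEq V] [Fintype W] [DecidableEq W]

theorem crossK_nonneg {U : Type} (s : W → Bool) (φ : W → Option W) {K : U → U → ℝ}
    (hK : ∀ x y, 0 ≤ K x y) (f g : W → U) : 0 ≤ crossK s φ K f g := by
  refine Finset.prod_nonneg fun w' _ => Finset.prod_nonneg fun w _ => ?_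
  unfold kr
  split_ifs
  · exact hK _ _
  · exact hK _ _
  · exact zero_le_one

/-- the sum of a product kernel over all maps -/
theorem sum_prod_pi {U : Type} [Fintype U] (g : W → U → ℝ) :
    ∑ f : W → U, ∏ w, g w (f w) = ∏ w, ∑ x, g w x := by
  classical
  rw [Finset.prod_univ_sum, Fintype.piFinset_univ]

theorem cross_row {U : Type} [Fintype U] (s : W → Bool) (φ : W → Option W)
    (hφ : ∀ w w', φ w' = some w → s w = s w') (m : Bool → U → ℝ) (K : U → U → ℝ)
    (m1 : ∀ b, ∑ x, m b x = 1) (row : ∀ x, m false x ≠ 0 → ∑ y, m true y * K x y = 1)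
    (col : ∀ y, m true y ≠ 0 → ∑ x, m false x * K x y = 1) (f : W → U)
    (hf : ∀ w, m (s w) (f w) ≠ 0) :
    ∑ g : W → U, (∏ w, m (!s w) (g w)) * crossK s φ K f g = 1 := by
  classical
  unfold crossK
  simp_rw [← Finset.prod_mul_distrib]
  rw [sum_prod_pi fun w' y => m (!s w') y * ∏ w, if φ w' = some w then kr K (s w) (f w) y else 1]
  refine Finset.prod_eq_one fun w' _ => ?_
  rcases h : φ w' with _ | w
  · simp [m1]
  · have h1 : ∀ y, (∏ v, if some w = some v then kr K (s v) (f v) y else 1) =
        kr K (s w) (f w) y := by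
      intro y
      rw [Finset.prod_eq_single w]
      · simp
      · intro v _ hv
        exact if_neg fun h' => hv (Option.some.inj h').symm
      · simp
    simp_rw [h1]
    have hs := hφ _ _ h
    have hw := hf w
    rcases (s w).eq_false_or_eq_true with hsw | hsw
    · rw [← hs, hsw]
      rw [hsw] at hw
      simpa [kr] using col _ hw
    · rw [← hs, hsw]
      rw [hsw] at hw
      simpa [kr] using row _ hw

theorem layer_bireg {B : SimpleGraph W} {H : SimpleGraph V} {s : W → Bool} {t : V → Bool}
    {φ : W → Option W} (hφ : ∀ w w', φ w' = some w → s w = s w')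
    (hB : KSid (sideEdges B s) s) (hH : KSid (sideEdges H t) t) :
    BiregKSid (sideEdges (layer B H t φ) (fun p => xor (t p.1) (s p.2)))
      (fun p => xor (t p.1) (s p.2)) := by
  classical
  intro U _ m K m0 m1 hK row col
  set T : ℝ := ∑ f : W → U, (∏ w, m (s w) (f w)) * ∏ e ∈ sideEdges B s, K (f e.1) (f e.2) with hT
  have hp : ∑ x, ∑ y, m false x * m true y * K x y = 1 := by
    calc ∑ x, ∑ y, m false x * m true y * K x y = ∑ x, m false x := by
          refine Finset.sum_congr rfl fun x _ => ?_
          by_cases hx : m false x = 0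
          · simp [hx]
          · calc ∑ y, m false x * m true y * K x y = m false x * ∑ y, m true y * K x y := by
                  rw [Finset.mul_sum]
                  exact Finset.sum_congr rfl fun y _ => by ring
              _ = m false x := by rw [row x hx, mul_one]
      _ = 1 := m1 false
  have hT1 : 1 ≤ T := by
    have := hB.2 U m K m0 m1 hK
    rwa [hp, one_pow] at this
  have hT0 : 0 < T := lt_of_lt_of_le one_pos hT1
  set m' : Bool → (W → U) → ℝ := fun b f =>
    if b = false then ((∏ w, m (s w) (f w)) * ∏ e ∈ sideEdges B s, K (f e.1) (f e.2)) / T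
    else ∏ w, m (!s w) (f w) with hm'
  have m'0 : ∀ b f, 0 ≤ m' b f := by
    intro b f
    simp only [hm']
    split_ifs
    · exact div_nonneg (mul_nonneg (Finset.prod_nonneg fun w _ => m0 _ _)
        (Finset.prod_nonneg fun e _ => hK _ _)) hT0.le
    · exact Finset.prod_nonneg fun w _ => m0 _ _
  have m'f : ∑ f, m' false f = 1 := by
    simp only [hm', if_true]
    rw [← Finset.sum_div]
    exact div_self hT0.ne'
  have m't : ∑ f, m' true f = 1 := by
    simp only [hm', Bool.true_eq_false, if_false]
    rw [sum_prod_pi fun w => m (!s w)]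
    exact Finset.prod_eq_one fun w _ => m1 _
  have m'1 : ∀ b, ∑ f, m' b f = 1 := by
    intro b
    cases b
    · exact m'f
    · exact m't
  have hK0 : ∀ f g, 0 ≤ crossK s φ K f g := crossK_nonneg s φ hK
  have hrow : ∀ f, m' false f ≠ 0 → ∑ g, m' true g * crossK s φ K f g = 1 := by
    intro f hf
    simp only [hm', if_true] at hf
    simp only [hm', Bool.true_eq_false, if_false]
    refine cross_row s φ hφ m K m1 row col f fun w hw => hf ?_
    rw [Finset.prod_eq_zero (Finset.mem_univ w) hw, zero_mul, zero_div]
  have hmean : ∑ f, ∑ g, m' false f * m' true g * crossK s φ K f g = 1 := by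
    calc ∑ f, ∑ g, m' false f * m' true g * crossK s φ K f g = ∑ f, m' false f := by
          refine Finset.sum_congr rfl fun f _ => ?_
          by_cases hf : m' false f = 0
          · simp [hf]
          · calc ∑ g, m' false f * m' true g * crossK s φ K f g =
                  m' false f * ∑ g, m' true g * crossK s φ K f g := by
                  rw [Finset.mul_sum]
                  exact Finset.sum_congr rfl fun g _ => by ring
              _ = m' false f := by rw [hrow f hf, mul_one]
      _ = 1 := m'f
  have key := hH.2 (W → U) m' (crossK s φ K) m'0 m'1 hK0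
  rw [hmean, one_pow] at key
  have hfin : ∑ z : V × W → U, (∏ p : V × W, m (xor (t p.1) (s p.2)) (z p)) *
      ∏ e ∈ sideEdges (layer B H t φ) (fun p => xor (t p.1) (s p.2)), K (z e.1) (z e.2) =
      (∏ x : V, if t x = false then T else 1) * ∑ Z : V → W → U, (∏ x, m' (t x) (Z x)) *
        ∏ e ∈ sideEdges H t, crossK s φ K (Z e.1) (Z e.2) := by
    rw [Finset.mul_sum, ← Equiv.sum_comp (Equiv.curry V W U)]
    refine Finset.sum_congr rfl fun z _ => ?_
    rw [prod_layer B H s t φ hφ K z]
    have hc : ∀ x w, (Equiv.curry V W U) z x w = z (x, w) := fun x w => rfl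
    have h5 : (∏ p : V × W, m (xor (t p.1) (s p.2)) (z p)) *
        (∏ x, if t x = false then ∏ e ∈ sideEdges B s, K (z (x, e.1)) (z (x, e.2)) else 1) =
        (∏ x : V, if t x = false then T else 1) * ∏ x, m' (t x) ((Equiv.curry V W U) z x) := by
      rw [Fintype.prod_prod_type, ← Finset.prod_mul_distrib, ← Finset.prod_mul_distrib]
      refine Finset.prod_congr rfl fun x _ => ?_
      simp only [hm', hc]
      rcases (t x).eq_false_or_eq_true with htx | htx
      · simp [htx]
      · simp only [htx, if_true, Bool.false_bne]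
        rw [mul_div_cancel₀ _ hT0.ne']
    rw [← mul_assoc, h5, mul_assoc]
    rfl
  rw [hfin]
  have hge : 1 ≤ ∏ x : V, if t x = false then T else 1 := by
    refine Finset.prod_induction _ (fun a : ℝ => 1 ≤ a)
      (fun a b ha hb => one_le_mul_of_one_le_of_one_le ha hb) le_rfl fun x _ => ?_
    split_ifs
    · exact hT1
    · exact le_rfl
  exact one_le_mul_of_one_le_of_one_le hge key

end Vale.Agent.P050.H98
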