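import Vale.Agent.P050.H98.Defs
import Vale.Agent.P050.H98.Main
import Vale.Agent.P050.H98.Iso

/-!
Replacing the vertices of one side by copies of a graph.
-/

set_option linter.unusedSectionVars false

namespace Vale.Agent.P050.H98

open Finset Vale.Agent.P050.Lev Vale.Agent.P050.H149

variable {V W J : Type} [Fintype V] [DecidableEq V] [Fintype W] [DecidableEq W] [Fintype J]
  [DecidableEq J]

/-- `B` with additional isolated vertices -/
def pad (J : Type) (B : SimpleGraph W) : SimpleGraph (W ⊕ J) where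
  Adj p q := ∃ a b, p = Sum.inl a ∧ q = Sum.inl b ∧ B.Adj a b
  symm := ⟨by
    rintro p q ⟨a, b, h1, h2, h3⟩
    exact ⟨b, a, h2, h1, h3.symm⟩⟩
  loopless := ⟨by
    rintro p ⟨a, b, h1, h2, h3⟩
    rw [h1] at h2
    exact h3.ne (Sum.inl_injective h2)⟩

theorem pad_gsid {B : SimpleGraph W} {s : W → Bool} (σ : J → Bool) (h : GSid B s) :
    GSid (pad J B) (Sum.elim s σ) := by
  refine (gsid_restrict (G₀ := B) (s₀ := s) (⟨Sum.inl, Sum.inl_injective⟩ : W ↪ W ⊕ J) ?_ ?_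
    fun _ => rfl).2 h
  · intro a b
    constructor
    · rintro ⟨a', b', h1, h2, h3⟩
      rw [Sum.inl_injective h1, Sum.inl_injective h2]
      exact h3
    · exact fun h3 => ⟨a, b, rfl, rfl, h3⟩
  · rintro u v ⟨a, b, h1, h2, h3⟩
    exact ⟨a, h1.symm⟩

/-- **Replacement.** -/
theorem repl_gsid {B : SimpleGraph W} {H : SimpleGraph V} {s : W → Bool} {t : V → Bool}
    (φ : J → W) (hB : GSid B s) (hH : GSid H t) : GSid (repl B H t φ) (replSide s t φ) := by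
  classical
  set φ' : W ⊕ J → Option (W ⊕ J) := Sum.elim (fun _ => none) (fun j => some (Sum.inl (φ j)))
    with hφ'
  set s' : W ⊕ J → Bool := Sum.elim s fun j => s (φ j) with hs'
  have h1 : ∀ w w', φ' w' = some w → s' w = s' w' := by
    rintro w (w' | j) h
    · simp [hφ'] at h
    · simp only [hφ', Sum.elim_inr, Option.some.injEq] at h
      rw [← h]
      rfl
  have hB' : GSid (pad J B) s' := pad_gsid _ hB
  have key := layer_bireg (φ := φ') h1 hB'.2 hH.2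
  have hside : ∀ u v, (layer (pad J B) H t φ').Adj u v →
      xor (t u.1) (s' u.2) ≠ xor (t v.1) (s' v.2) := by
    rintro ⟨x, w⟩ ⟨y, w'⟩ (⟨h2, h3, h4⟩ | ⟨h2, h3, h4, h5⟩ | ⟨h2, h3, h4, h5⟩)
    · simp only at h2 h3 h4 ⊢
      subst h2
      have := hB'.1 _ _ h4
      simpa using this
    · simp only at h2 h3 h4 h5 ⊢
      rw [h3, h4, h1 _ _ h5]
      simp
    · simp only at h2 h3 h4 h5 ⊢
      rw [h3, h4, ← h1 _ _ h5]
      simp
  have hlay := gsid_of_bireg hside key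
  obtain ⟨ι, hι1, hι2⟩ : ∃ ι : ({x : V // t x = false} × W) ⊕ ({y : V // t y = true} × J) ↪
      V × (W ⊕ J), (∀ p, ι (Sum.inl p) = (p.1.1, Sum.inl p.2)) ∧
        ∀ p, ι (Sum.inr p) = (p.1.1, Sum.inr p.2) :=
    ⟨⟨Sum.elim (fun p => (p.1.1, Sum.inl p.2)) (fun p => (p.1.1, Sum.inr p.2)), by
      rintro (⟨⟨x, hx⟩, w⟩ | ⟨⟨x, hx⟩, w⟩) (⟨⟨y, hy⟩, w'⟩ | ⟨⟨y, hy⟩, w'⟩) h <;>
        simp_all⟩, fun _ => rfl, fun _ => rfl⟩
  refine (gsid_restrict ι ?_ ?_ ?_).1 hlay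
  · rintro (⟨⟨x, hx⟩, w⟩ | ⟨⟨x, hx⟩, w⟩) (⟨⟨y, hy⟩, w'⟩ | ⟨⟨y, hy⟩, w'⟩) <;>
      simp only [hι1, hι2]
    · constructor
      · rintro (⟨h2, h3, a, b, h4, h5, h6⟩ | ⟨h2, h3, h4, h5⟩ | ⟨h2, h3, h4, h5⟩)
        · rw [← Sum.inl_injective h4, ← Sum.inl_injective h5] at h6
          exact ⟨Subtype.ext h2, h6⟩
        · simp [hφ'] at h5
        · simp [hφ'] at h5
      · rintro ⟨h2, h3⟩
        exact Or.inl ⟨congrArg Subtype.val h2, hx, w, w', rfl, rfl, h3⟩
    · constructor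
      · rintro (⟨h2, h3, a, b, h4, h5, h6⟩ | ⟨h2, h3, h4, h5⟩ | ⟨h2, h3, h4, h5⟩)
        · simp at h5
        · simp only [hφ', Sum.elim_inr, Option.some.injEq] at h5
          exact ⟨h2, Sum.inl_injective h5⟩
        · simp [hφ'] at h5
      · rintro ⟨h2, h3⟩
        refine Or.inr (Or.inl ⟨h2, hx, hy, ?_⟩)
        simp only [hφ', Sum.elim_inr]
        exact congrArg _ (congrArg _ h3)
    · constructor
      · rintro (⟨h2, h3, a, b, h4, h5, h6⟩ | ⟨h2, h3, h4, h5⟩ | ⟨h2, h3, h4, h5⟩)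
        · simp at h4
        · simp [hφ'] at h5
        · simp only [hφ', Sum.elim_inr, Option.some.injEq] at h5
          exact ⟨h2.symm, Sum.inl_injective h5⟩
      · rintro ⟨h2, h3⟩
        refine Or.inr (Or.inr ⟨h2.symm, hx, hy, ?_⟩)
        simp only [hφ', Sum.elim_inr]
        exact congrArg _ (congrArg _ h3)
    · constructor
      · rintro (⟨h2, h3, a, b, h4, h5, h6⟩ | ⟨h2, h3, h4, h5⟩ | ⟨h2, h3, h4, h5⟩)
        · simp at h4
        · simp only at h3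
          rw [hx] at h3
          simp at h3
        · simp only at h4
          rw [hy] at h4
          simp at h4
      · exact fun h => h.elim
  · rintro ⟨x, w⟩ ⟨y, w'⟩ (⟨h2, h3, h4⟩ | ⟨h2, h3, h4, h5⟩ | ⟨h2, h3, h4, h5⟩)
    · obtain ⟨a, b, h6, h7, -⟩ := h4
      exact ⟨Sum.inl (⟨x, h3⟩, a), by simp only at h6; rw [h6, hι1]⟩
    · rcases w' with w' | j
      · simp [hφ'] at h5
      · simp only [hφ', Sum.elim_inr, Option.some.injEq] at h5
        exact ⟨Sum.inl (⟨x, h3⟩, φ j), by rw [← h5, hι1]⟩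
    · rcases w with w | j
      · simp [hφ'] at h5
      · exact ⟨Sum.inr (⟨x, h3⟩, j), hι2 _⟩
  · rintro (⟨⟨x, hx⟩, w⟩ | ⟨⟨x, hx⟩, w⟩)
    · simp [hι1, hs', replSide, hx]
    · simp [hι2, hs', replSide, hx]

end Vale.Agent.P050.H98
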