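import Vale.Agent.P050.H98.SubJoin
import Vale.Agent.P050.H98.SubBox

/-!
Subdivisions of joins, of disjoint unions, of edgeless graphs and of complete graphs.
-/

set_option linter.unusedSectionVars false

namespace Vale.Agent.P050.H98

open Finset Vale.Agent.P050.Lev Vale.Agent.P050.H149

variable {V W : Type}

theorem dK_cherry {U : Type} [Fintype U] (m : Bool → U → ℝ) (K : U → U → ℝ) (x y : U) :
    dK cherry Sum.isRight m K x y = ∑ l, m true l * (K x l * K y l) := by
  classical
  unfold dK
  rw [← Equiv.sum_comp (Equiv.funUnique Unit U).symm]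
  refine Finset.sum_congr rfl fun l _ => ?_
  rw [prod_sideEdges cherry _ fun u v => K (ext x y ((Equiv.funUnique Unit U).symm l) u)
    (ext x y ((Equiv.funUnique Unit U).symm l) v)]
  simp only [Fintype.prod_sum_type, cherry, ext, Equiv.funUnique]
  simp
  exact Or.inl (mul_comm _ _)

theorem cherry_gsid : GSid cherry Sum.isRight := by
  classical
  refine gsid_of_bireg ?_ ?_
  · rintro (u | u) (v | v) (⟨h1, h2⟩ | ⟨h1, h2⟩) <;> simp_all
  · intro U _ m K m0 m1 hK row col
    rw [dens_D]
    simp only [Sum.isRight_inl, dK_cherry]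
    refine le_of_eq ?_
    have h1 : ∀ l, m true l ≠ 0 → ∑ x, m false x * K x l = 1 := col
    symm
    calc ∑ x, m false x * ∑ y, m false y * ∑ l, m true l * (K x l * K y l) =
        ∑ x, ∑ y, ∑ l, m true l * ((m false x * K x l) * (m false y * K y l)) := by
          refine Finset.sum_congr rfl fun x _ => ?_
          rw [Finset.mul_sum]
          refine Finset.sum_congr rfl fun y _ => ?_
          rw [Finset.mul_sum, Finset.mul_sum]
          exact Finset.sum_congr rfl fun l _ => by ring
      _ = ∑ l, ∑ x, ∑ y, m true l * ((m false x * K x l) * (m false y * K y l)) := by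
          rw [Finset.sum_congr rfl fun x _ => Finset.sum_comm, Finset.sum_comm]
      _ = ∑ l, m true l * ((∑ x, m false x * K x l) * ∑ y, m false y * K y l) := by
          refine Finset.sum_congr rfl fun l _ => ?_
          rw [Finset.sum_mul_sum, Finset.mul_sum]
          refine Finset.sum_congr rfl fun x _ => ?_
          rw [Finset.mul_sum]
      _ = ∑ l, m true l := by
          refine Finset.sum_congr rfl fun l _ => ?_
          by_cases hl : m true l = 0
          · simp [hl]
          · rw [h1 l hl]
            simp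
      _ = 1 := m1 true

/-- **Subdivisions of joins.** -/
theorem subSid_join [Finite V] [Finite W] {F : SimpleGraph V} {G : SimpleGraph W} (hF : SubSid F)
    (hG : SubSid G) : SubSid ((F ⊕g G) ⊔ completeBipartiteGraph V W) := by
  intro i j
  obtain ⟨iF⟩ : Nonempty (Fintype (V ⊕ F.edgeSet)) := ⟨Fintype.ofFinite _⟩
  obtain ⟨iG⟩ : Nonempty (Fintype (W ⊕ G.edgeSet)) := ⟨Fintype.ofFinite _⟩
  obtain ⟨jF⟩ : Nonempty (DecidableEq (V ⊕ F.edgeSet)) := ⟨Classical.decEq _⟩
  obtain ⟨jG⟩ : Nonempty (DecidableEq (W ⊕ G.edgeSet)) := ⟨Classical.decEq _⟩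
  have hF' := hF iF jF
  have hG' := hG iG jG
  have key := joinBy_gsid (b₁ := false) (b₂ := false) hF' hG' cherry_gsid rfl rfl
  exact (gsid_restrict ⟨toJn F G, toJn_inj F G⟩ (fun p q => (joinBy_cherry_adj p q).symm)
    (fun u _ _ => toJn_surj F G u) toJn_side).2 key

end Vale.Agent.P050.H98
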