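import Vale.Agent.P050.H98.SubClass

/-!
Subdivisions of edgeless graphs, of complete graphs and of graphs with the two-sided Sidorenko
inequality.
-/

set_option linter.unusedSectionVars false

namespace Vale.Agent.P050.H98

open Finset Vale.Agent.P050.Lev Vale.Agent.P050.H149

theorem gsid_irrel {V : Type} (i i' : Fintype V) (j j' : DecidableEq V) {G : SimpleGraph V}
    {s : V → Bool} (h : @GSid V i j G s) : @GSid V i' j' G s := by
  have e1 := Subsingleton.elim i i'
  have e2 := Subsingleton.elim j j'
  subst e1 e2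
  exact h

theorem subSid_iso {V W : Type} {F : SimpleGraph V} {G : SimpleGraph W} (φ : F ≃g G)
    (h : SubSid F) : SubSid G := by
  intro i j
  have hW : Finite W := Finite.of_injective (Sum.inl : W → W ⊕ G.edgeSet) Sum.inl_injective
  have hV : Finite V := Finite.of_equiv W φ.symm.toEquiv
  obtain ⟨iF⟩ : Nonempty (Fintype (V ⊕ F.edgeSet)) := ⟨Fintype.ofFinite _⟩
  obtain ⟨jF⟩ : Nonempty (DecidableEq (V ⊕ F.edgeSet)) := ⟨Classical.decEq _⟩
  have hmem : ∀ (v : V) (e : F.edgeSet), φ v ∈ (φ.mapEdgeSet e).1 ↔ v ∈ e.1 := by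
    rintro v ⟨e, he⟩
    simp only [SimpleGraph.Iso.mapEdgeSet, Equiv.coe_fn_mk, SimpleGraph.Hom.mapEdgeSet,
      Sym2.mem_map]
    constructor
    · rintro ⟨a, ha, hav⟩
      rw [← φ.injective hav]
      exact ha
    · exact fun hv => ⟨v, hv, rfl⟩
  refine (gsid_restrict (φ.toEquiv.sumCongr φ.mapEdgeSet).toEmbedding ?_ ?_ ?_).2 (h iF jF)
  · rintro (v | e) (v' | e')
    · exact Iff.rfl
    · exact hmem v e'
    · exact hmem v' e
    · exact Iff.rfl
  · intro u v _
    exact (φ.toEquiv.sumCongr φ.mapEdgeSet).surjective u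
  · rintro (v | e) <;> rfl

theorem subSid_of_no_edge {V : Type} {F : SimpleGraph V} (h : ∀ u v, ¬ F.Adj u v) :
    SubSid F := by
  classical
  intro i j
  have hno : ∀ u v, ¬ (sub1 F).Adj u v := by
    have he : ∀ e : F.edgeSet, False := by
      rintro ⟨e, he⟩
      induction e using Sym2.ind with
      | _ a b => exact h a b he
    rintro (u | u) (v | v) h'
    · exact h'
    · exact he v
    · exact he u
    · exact h'
  refine gsid_of_bireg (fun u v h' => (hno u v h').elim) ?_
  intro U _ m K m0 m1 hK row col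
  have hE : sideEdges (sub1 F) Sum.isRight = ∅ := by
    unfold sideEdges
    exact Finset.filter_eq_empty_iff.2 fun e _ he => hno _ _ he.1
  rw [hE]
  simp only [Finset.prod_empty, mul_one]
  rw [sum_prod_pi fun v => m (Sum.isRight v)]
  exact (Finset.prod_eq_one fun v _ => m1 _).ge

theorem jn_top (V W : Type) : (((⊤ : SimpleGraph V) ⊕g (⊤ : SimpleGraph W)) ⊔
    completeBipartiteGraph V W) = ⊤ := by
  ext u v
  rw [SimpleGraph.sup_adj, SimpleGraph.top_adj]
  rcases u with u | u <;> rcases v with v | v <;> simp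

/-- complete graphs -/
theorem subSid_top (V : Type) [Finite V] : SubSid (⊤ : SimpleGraph V) := by
  induction V using Finite.induction_empty_option with
  | of_equiv e ih =>
    exact subSid_iso (SimpleGraph.Iso.completeGraph e) ih
  | h_empty => exact subSid_of_no_edge fun u _ => u.elim
  | h_option ih =>
    rename_i V _
    have h1 : SubSid (⊤ : SimpleGraph PUnit.{1}) :=
      subSid_of_no_edge fun u v h => h (Subsingleton.elim u v)
    have h2 := subSid_join ih h1
    rw [jn_top] at h2
    exact subSid_iso (SimpleGraph.Iso.completeGraph (Equiv.optionEquivSumPUnit V).symm) h2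

section good

variable {V : Type} [Fintype V] [DecidableEq V] {F : SimpleGraph V} {s : V → Bool}

theorem prod_mem_pair {U : Type} (K : U → U → ℝ) (z : V → U) (l : U) {a b : V} (hab : a ≠ b) :
    (∏ v, if v ∈ s(a, b) then K (z v) l else 1) = K (z a) l * K (z b) l := by
  classical
  rw [← Finset.prod_filter]
  have h1 : (univ.filter fun v => v ∈ s(a, b)) = {a, b} := by
    ext v
    simp
  rw [h1, Finset.prod_pair hab]

theorem wgt_sub [Fintype F.edgeSet] [DecidableEq F.edgeSet] {U : Type} [Fintype U]
    (m : Bool → U → ℝ) (K : U → U → ℝ) (z : V → U) (h : F.edgeSet → U) :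
    wgt (sub1 F) Sum.isRight m K (Sum.elim z h) = (∏ v, m false (z v)) *
      ∏ e : F.edgeSet, (m true (h e) * ∏ v, if v ∈ e.1 then K (z v) (h e) else 1) := by
  classical
  unfold wgt
  rw [prod_sideEdges (sub1 F) _ fun u v => K (Sum.elim z h u) (Sum.elim z h v),
    Fintype.prod_sum_type, Finset.prod_mul_distrib]
  have h1 : (∏ u : V ⊕ F.edgeSet, ∏ v : V ⊕ F.edgeSet,
      if (sub1 F).Adj u v ∧ Sum.isRight u = false ∧ Sum.isRight v = true then
        K (Sum.elim z h u) (Sum.elim z h v) else 1) =
      ∏ e : F.edgeSet, ∏ v, if v ∈ e.1 then K (z v) (h e) else 1 := by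
    rw [Finset.prod_comm (s := (univ : Finset F.edgeSet))]
    simp [Fintype.prod_sum_type, sub1]
  rw [h1]
  simp only [Sum.isRight_inl, Sum.isRight_inr, Sum.elim_inl, Sum.elim_inr]
  ring

theorem prod_edges [Fintype F.edgeSet] (hs : ∀ u v, F.Adj u v → s u ≠ s v) (f : F.edgeSet → ℝ)
    (g : V → V → ℝ) (hfg : ∀ a b (h : F.Adj a b), f ⟨s(a, b), h⟩ = g a b) :
    ∏ e, f e = ∏ e ∈ sideEdges F s, g e.1 e.2 := by
  classical
  symm
  have hadj : ∀ e ∈ sideEdges F s, F.Adj e.1 e.2 ∧ s e.1 = false ∧ s e.2 = true := by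
    intro e he
    unfold sideEdges at he
    exact (Finset.mem_filter.1 he).2
  refine Finset.prod_bij (fun e he => ⟨s(e.1, e.2), (hadj e he).1⟩) (fun _ _ => mem_univ _) ?_ ?_ ?_
  · rintro ⟨a, b⟩ h1 ⟨c, d⟩ h2 h
    have h3 := congrArg Subtype.val h
    simp only [Sym2.eq_iff] at h3
    rcases h3 with ⟨rfl, rfl⟩ | ⟨rfl, rfl⟩
    · rfl
    · have e1 := (hadj _ h1).2.1
      have e2 := (hadj _ h2).2.2
      simp only at e1 e2
      rw [e1] at e2
      simp at e2
  · rintro ⟨e, he⟩ -
    induction e using Sym2.ind with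
    | _ a b =>
      have h1 : F.Adj a b := he
      have hne := hs a b h1
      rcases (s a).eq_false_or_eq_true with ha | ha
      · have hb : s b = false := by
          rcases (s b).eq_false_or_eq_true with hb | hb
          · exact absurd (ha.trans hb.symm) hne
          · exact hb
        refine ⟨(b, a), ?_, Subtype.ext Sym2.eq_swap⟩
        unfold sideEdges
        exact Finset.mem_filter.2 ⟨mem_univ _, h1.symm, hb, ha⟩
      · have hb : s b = true := by
          rcases (s b).eq_false_or_eq_true with hb | hb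
          · exact hb
          · exact absurd (ha.trans hb.symm) hne
        refine ⟨(a, b), ?_, rfl⟩
        unfold sideEdges
        exact Finset.mem_filter.2 ⟨mem_univ _, h1, ha, hb⟩
  · intro e he
    exact (hfg e.1 e.2 (hadj e he).1).symm

theorem cherry_mean {U : Type} [Fintype U] {m : Bool → U → ℝ} {K : U → U → ℝ} (h : BR m K) :
    ∑ x, ∑ y, m false x * m false y * ∑ l, m true l * (K x l * K y l) = 1 := by
  calc ∑ x, ∑ y, m false x * m false y * ∑ l, m true l * (K x l * K y l) =
        ∑ x, ∑ y, ∑ l, m true l * ((m false x * K x l) * (m false y * K y l)) := by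
          refine Finset.sum_congr rfl fun x _ => Finset.sum_congr rfl fun y _ => ?_
          rw [Finset.mul_sum]
          exact Finset.sum_congr rfl fun l _ => by ring
      _ = ∑ l, ∑ x, ∑ y, m true l * ((m false x * K x l) * (m false y * K y l)) := by
          rw [Finset.sum_congr rfl fun x _ => Finset.sum_comm, Finset.sum_comm]
      _ = ∑ l, m true l * ((∑ x, m false x * K x l) * ∑ y, m false y * K y l) := by
          refine Finset.sum_congr rfl fun l _ => ?_
          rw [Finset.sum_mul_sum, Finset.mul_sum]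
          refine Finset.sum_congr rfl fun x _ => ?_
          rw [Finset.mul_sum]
      _ = ∑ l, m true l := by
          refine Finset.sum_congr rfl fun l _ => ?_
          by_cases hl : m true l = 0
          · simp [hl]
          · rw [h.col l hl]
            simp
      _ = 1 := h.m1 true

theorem sub1_gsid [Fintype F.edgeSet] [DecidableEq F.edgeSet] (hF : GSid F s) :
    GSid (sub1 F) Sum.isRight := by
  classical
  refine gsid_of_bireg ?_ ?_
  · rintro (u | u) (v | v) h
    · exact h.elim
    · simp
    · simp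
    · exact h.elim
  · intro U _ m K m0 m1 hK row col
    have hbr : BR m K := ⟨m0, m1, hK, row, col⟩
    have key := hF.2.2 U (fun _ => m false) (fun x y => ∑ l, m true l * (K x l * K y l))
      (fun _ => m0 false) (fun _ => m1 false) (fun x y => Finset.sum_nonneg fun l _ =>
        mul_nonneg (m0 _ _) (mul_nonneg (hK _ _) (hK _ _)))
    simp only [cherry_mean hbr, one_pow] at key
    refine key.trans (le_of_eq ?_)
    rw [← Equiv.sum_comp (Equiv.sumArrowEquivProdArrow V F.edgeSet U).symm, Fintype.sum_prod_type]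
    refine Finset.sum_congr rfl fun z _ => ?_
    have e1 : ∀ h : F.edgeSet → U,
        (∏ v, m (Sum.isRight v) ((Equiv.sumArrowEquivProdArrow V F.edgeSet U).symm (z, h) v)) *
        ∏ e ∈ sideEdges (sub1 F) Sum.isRight,
          K ((Equiv.sumArrowEquivProdArrow V F.edgeSet U).symm (z, h) e.1)
            ((Equiv.sumArrowEquivProdArrow V F.edgeSet U).symm (z, h) e.2) =
        (∏ v, m false (z v)) *
          ∏ e : F.edgeSet, (m true (h e) * ∏ v, if v ∈ e.1 then K (z v) (h e) else 1) :=
      fun h => wgt_sub m K z h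
    simp_rw [e1, ← Finset.mul_sum]
    congr 1
    rw [sum_prod_pi fun (e : F.edgeSet) l => m true l * ∏ v, if v ∈ e.1 then K (z v) l else 1]
    symm
    refine prod_edges hF.1 _ (fun a b => ∑ l, m true l * (K (z a) l * K (z b) l)) ?_
    intro a b hab
    refine Finset.sum_congr rfl fun l _ => ?_
    rw [prod_mem_pair K z l hab.ne]

/-- graphs with the two-sided Sidorenko inequality -/
theorem subSid_of_gsid (hF : GSid F s) : SubSid F := by
  obtain ⟨iE⟩ : Nonempty (Fintype F.edgeSet) := ⟨Fintype.ofFinite _⟩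
  obtain ⟨jE⟩ : Nonempty (DecidableEq F.edgeSet) := ⟨Classical.decEq _⟩
  have key := sub1_gsid hF
  intro i j
  exact gsid_irrel _ _ _ _ key

end good

end Vale.Agent.P050.H98
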