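import Vale.Agent.P050.H98.Repl

/-!
Subdivisions of Cartesian products.
-/

set_option linter.unusedSectionVars false

namespace Vale.Agent.P050.H98

open Finset Vale.Agent.P050.Lev Vale.Agent.P050.H149

variable {V W : Type}

/-- the edge over the vertex `v` -/
def vert (F : SimpleGraph V) (G : SimpleGraph W) (v : V) (e : G.edgeSet) : (F □ G).edgeSet :=
  ⟨e.1.map fun w => (v, w), by
    obtain ⟨e, he⟩ := e
    induction e using Sym2.ind with
    | _ a b =>
      rw [SimpleGraph.mem_edgeSet] at he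
      simp only [Sym2.map_mk, SimpleGraph.mem_edgeSet, SimpleGraph.boxProd_adj]
      exact Or.inr ⟨he, trivial⟩⟩

/-- the edge at the height `w` -/
def horiz (F : SimpleGraph V) (G : SimpleGraph W) (w : W) (e : F.edgeSet) : (F □ G).edgeSet :=
  ⟨e.1.map fun v => (v, w), by
    obtain ⟨e, he⟩ := e
    induction e using Sym2.ind with
    | _ a b =>
      rw [SimpleGraph.mem_edgeSet] at he
      simp only [Sym2.map_mk, SimpleGraph.mem_edgeSet, SimpleGraph.boxProd_adj]
      exact Or.inl ⟨he, trivial⟩⟩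

theorem mem_vert {F : SimpleGraph V} {G : SimpleGraph W} {v : V} {e : G.edgeSet} {x : V} {y : W} :
    (x, y) ∈ (vert F G v e).1 ↔ v = x ∧ y ∈ e.1 := by
  simp only [vert, Sym2.mem_map, Prod.mk.injEq]
  constructor
  · rintro ⟨a, h, h1, rfl⟩
    exact ⟨h1, h⟩
  · rintro ⟨h1, h⟩
    exact ⟨y, h, h1, rfl⟩

theorem mem_horiz {F : SimpleGraph V} {G : SimpleGraph W} {w : W} {e : F.edgeSet} {x : V} {y : W} :
    (x, y) ∈ (horiz F G w e).1 ↔ x ∈ e.1 ∧ w = y := by
  simp only [horiz, Sym2.mem_map, Prod.mk.injEq]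
  constructor
  · rintro ⟨a, h, rfl, h1⟩
    exact ⟨h, h1⟩
  · rintro ⟨h, h1⟩
    exact ⟨x, h, rfl, h1⟩

theorem vert_inj {F : SimpleGraph V} {G : SimpleGraph W} {v v' : V} {e e' : G.edgeSet}
    (h : vert F G v e = vert F G v' e') : v = v' ∧ e = e' := by
  have h1 : v = v' := by
    have h2 : (v, e.1.out.1) ∈ (vert F G v e).1 := mem_vert.2 ⟨rfl, Sym2.out_fst_mem _⟩
    rw [h] at h2
    exact (mem_vert.1 h2).1.symm
  subst h1
  refine ⟨rfl, Subtype.ext ?_⟩
  have h3 := congrArg Subtype.val h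
  refine Sym2.map.injective ?_ h3
  intro a b hab
  simpa using hab

theorem horiz_inj {F : SimpleGraph V} {G : SimpleGraph W} {v v' : W} {e e' : F.edgeSet}
    (h : horiz F G v e = horiz F G v' e') : v = v' ∧ e = e' := by
  have h1 : v = v' := by
    have h2 : (e.1.out.1, v) ∈ (horiz F G v e).1 := mem_horiz.2 ⟨Sym2.out_fst_mem _, rfl⟩
    rw [h] at h2
    exact (mem_horiz.1 h2).2.symm
  subst h1
  refine ⟨rfl, Subtype.ext ?_⟩
  have h3 := congrArg Subtype.val h
  refine Sym2.map.injective ?_ h3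
  intro a b hab
  simpa using hab

theorem vert_ne_horiz {F : SimpleGraph V} {G : SimpleGraph W} {v : V} {w : W} {e : G.edgeSet}
    {e' : F.edgeSet} : vert F G v e ≠ horiz F G w e' := by
  intro h
  obtain ⟨e', he'⟩ := e'
  induction e' using Sym2.ind with
  | _ a b =>
    have h1 : (a, w) ∈ (horiz F G w ⟨s(a, b), he'⟩).1 := mem_horiz.2 ⟨Sym2.mem_mk_left a b, rfl⟩
    have h2 : (b, w) ∈ (horiz F G w ⟨s(a, b), he'⟩).1 := mem_horiz.2 ⟨Sym2.mem_mk_right a b, rfl⟩
    rw [← h] at h1 h2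
    have h3 := (mem_vert.1 h1).1.symm.trans (mem_vert.1 h2).1
    rw [SimpleGraph.mem_edgeSet] at he'
    exact he'.ne h3

/-- the vertex given by an element of the left side -/
def vOf {A E : Type} : {x : A ⊕ E // x.isRight = false} → A
  | ⟨.inl v, _⟩ => v
  | ⟨.inr _, h⟩ => absurd h (by simp)

/-- the edge given by an element of the right side -/
def eOf {A E : Type} : {x : A ⊕ E // x.isRight = true} → E
  | ⟨.inr e, _⟩ => e
  | ⟨.inl _, h⟩ => absurd h (by simp)

theorem val_vOf {A E : Type} (x : {x : A ⊕ E // x.isRight = false}) : x.1 = Sum.inl (vOf x) := by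
  obtain ⟨x | x, h⟩ := x
  · rfl
  · simp at h

theorem val_eOf {A E : Type} (x : {x : A ⊕ E // x.isRight = true}) : x.1 = Sum.inr (eOf x) := by
  obtain ⟨x | x, h⟩ := x
  · simp at h
  · rfl

theorem vOf_inj {A E : Type} {x y : {x : A ⊕ E // x.isRight = false}} (h : vOf x = vOf y) :
    x = y := by
  apply Subtype.ext
  rw [val_vOf, val_vOf, h]

theorem eOf_inj {A E : Type} {x y : {x : A ⊕ E // x.isRight = true}} (h : eOf x = eOf y) :
    x = y := by
  apply Subtype.ext
  rw [val_eOf, val_eOf, h]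

/-- the vertices of the replaced graph as vertices of the subdivision of the product -/
def toSub (F : SimpleGraph V) (G : SimpleGraph W) :
    (({x : V ⊕ F.edgeSet // x.isRight = false} × (W ⊕ G.edgeSet)) ⊕
      ({y : V ⊕ F.edgeSet // y.isRight = true} × W)) → (V × W) ⊕ (F □ G).edgeSet
  | .inl (x, .inl w) => .inl (vOf x, w)
  | .inl (x, .inr e) => .inr (vert F G (vOf x) e)
  | .inr (y, w) => .inr (horiz F G w (eOf y))

theorem toSub_inj (F : SimpleGraph V) (G : SimpleGraph W) : Function.Injective (toSub F G) := by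
  rintro (⟨x, w | e⟩ | ⟨x, w⟩) (⟨y, w' | e'⟩ | ⟨y, w'⟩) h <;> simp only [toSub] at h
  · have h1 := Sum.inl_injective h
    rw [Prod.mk.injEq] at h1
    rw [vOf_inj h1.1, h1.2]
  · simp at h
  · simp at h
  · simp at h
  · have h1 := vert_inj (Sum.inr_injective h)
    rw [vOf_inj h1.1, h1.2]
  · exact absurd (Sum.inr_injective h) vert_ne_horiz
  · simp at h
  · exact absurd (Sum.inr_injective h).symm vert_ne_horiz
  · have h1 := horiz_inj (Sum.inr_injective h)
    rw [eOf_inj h1.2, h1.1]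

theorem toSub_adj (F : SimpleGraph V) (G : SimpleGraph W)
    (p q : ({x : V ⊕ F.edgeSet // x.isRight = false} × (W ⊕ G.edgeSet)) ⊕
      ({y : V ⊕ F.edgeSet // y.isRight = true} × W)) :
    (sub1 (F □ G)).Adj (toSub F G p) (toSub F G q) ↔
      (repl (sub1 G) (sub1 F) Sum.isRight Sum.inl).Adj p q := by
  rcases p with ⟨x, w | e⟩ | ⟨x, w⟩ <;> rcases q with ⟨y, w' | e'⟩ | ⟨y, w'⟩ <;>
    simp only [toSub, sub1, repl, and_false, mem_vert, mem_horiz]
  · constructor
    · rintro ⟨h1, h2⟩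
      exact ⟨(vOf_inj h1).symm, h2⟩
    · rintro ⟨rfl, h2⟩
      exact ⟨rfl, h2⟩
  · rw [val_vOf x, val_eOf y]
    simp only [Sum.inl.injEq]
  · constructor
    · rintro ⟨h1, h2⟩
      exact ⟨vOf_inj h1, h2⟩
    · rintro ⟨rfl, h2⟩
      exact ⟨rfl, h2⟩
  · simp
  · rw [val_vOf y, val_eOf x]
    simp only [Sum.inl.injEq]
  · simp

theorem toSub_surj (F : SimpleGraph V) (G : SimpleGraph W) (u : (V × W) ⊕ (F □ G).edgeSet) :
    u ∈ Set.range (toSub F G) := by
  rcases u with ⟨v, w⟩ | ⟨f, hf⟩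
  · exact ⟨Sum.inl (⟨Sum.inl v, rfl⟩, Sum.inl w), rfl⟩
  · induction f using Sym2.ind with
    | _ p q =>
      obtain ⟨a, a'⟩ := p
      obtain ⟨b, b'⟩ := q
      have hf' := hf
      rw [SimpleGraph.mem_edgeSet, SimpleGraph.boxProd_adj] at hf'
      rcases hf' with ⟨h1, h2⟩ | ⟨h1, h2⟩
      · simp only at h1 h2
        subst h2
        exact ⟨Sum.inr (⟨Sum.inr ⟨s(a, b), h1⟩, rfl⟩, a'), rfl⟩
      · simp only at h1 h2
        subst h2
        exact ⟨Sum.inl (⟨Sum.inl a, rfl⟩, Sum.inr ⟨s(a', b'), h1⟩), rfl⟩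

theorem toSub_side (F : SimpleGraph V) (G : SimpleGraph W)
    (p : ({x : V ⊕ F.edgeSet // x.isRight = false} × (W ⊕ G.edgeSet)) ⊕
      ({y : V ⊕ F.edgeSet // y.isRight = true} × W)) :
    (toSub F G p).isRight = replSide Sum.isRight Sum.isRight Sum.inl p := by
  rcases p with ⟨x, w | e⟩ | ⟨x, w⟩ <;> rfl

end Vale.Agent.P050.H98
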