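import Vale.Agent.P050.H98.Glue
import Vale.Agent.P050.H98.SubMap

/-!
Subdivisions of joins: the vertices of the joined subdivisions as vertices of the subdivision of
the join.
-/

set_option linter.unusedSectionVars false

namespace Vale.Agent.P050.H98

open Finset Vale.Agent.P050.Lev Vale.Agent.P050.H149

variable {V W : Type}

/-- the join of two graphs -/
abbrev jn (F : SimpleGraph V) (G : SimpleGraph W) : SimpleGraph (V ⊕ W) :=
  (F ⊕g G) ⊔ completeBipartiteGraph V W

/-- an edge of the first graph -/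
def jl (F : SimpleGraph V) (G : SimpleGraph W) (e : F.edgeSet) : (jn F G).edgeSet :=
  ⟨e.1.map Sum.inl, by
    obtain ⟨e, he⟩ := e
    induction e using Sym2.ind with
    | _ a b =>
      rw [SimpleGraph.mem_edgeSet] at he
      simp only [Sym2.map_mk, SimpleGraph.mem_edgeSet, SimpleGraph.sup_adj]
      exact Or.inl he⟩

/-- an edge of the second graph -/
def jr (F : SimpleGraph V) (G : SimpleGraph W) (e : G.edgeSet) : (jn F G).edgeSet :=
  ⟨e.1.map Sum.inr, by
    obtain ⟨e, he⟩ := e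
    induction e using Sym2.ind with
    | _ a b =>
      rw [SimpleGraph.mem_edgeSet] at he
      simp only [Sym2.map_mk, SimpleGraph.mem_edgeSet, SimpleGraph.sup_adj]
      exact Or.inl he⟩

/-- an edge between the graphs -/
def jm (F : SimpleGraph V) (G : SimpleGraph W) (v : V) (w : W) : (jn F G).edgeSet :=
  ⟨s(Sum.inl v, Sum.inr w), by
    rw [SimpleGraph.mem_edgeSet, SimpleGraph.sup_adj]
    exact Or.inr (Or.inl ⟨rfl, rfl⟩)⟩

variable {F : SimpleGraph V} {G : SimpleGraph W}

theorem inl_mem_jl {v : V} {e : F.edgeSet} : Sum.inl v ∈ (jl F G e).1 ↔ v ∈ e.1 := by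
  simp [jl, Sym2.mem_map]

theorem inr_mem_jl {w : W} {e : F.edgeSet} : Sum.inr w ∈ (jl F G e).1 ↔ False := by
  simp [jl, Sym2.mem_map]

theorem inl_mem_jr {v : V} {e : G.edgeSet} : Sum.inl v ∈ (jr F G e).1 ↔ False := by
  simp [jr, Sym2.mem_map]

theorem inr_mem_jr {w : W} {e : G.edgeSet} : Sum.inr w ∈ (jr F G e).1 ↔ w ∈ e.1 := by
  simp [jr, Sym2.mem_map]

theorem inl_mem_jm {v v' : V} {w : W} : Sum.inl v' ∈ (jm F G v w).1 ↔ v' = v := by
  simp [jm]

theorem inr_mem_jm {v : V} {w w' : W} : Sum.inr w' ∈ (jm F G v w).1 ↔ w' = w := by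
  simp [jm]

/-- the path with two edges between the marked vertices -/
def cherry : SimpleGraph (Bool ⊕ Unit) := completeBipartiteGraph Bool Unit

/-- the vertices of the joined graph -/
abbrev JV (F : SimpleGraph V) (G : SimpleGraph W) : Type :=
  (V ⊕ F.edgeSet) ⊕ ((W ⊕ G.edgeSet) ⊕ (({x : V ⊕ F.edgeSet // x.isRight = false} ×
    {y : W ⊕ G.edgeSet // y.isRight = false}) × Unit))

/-- the vertices of the joined graph as vertices of the subdivision -/
def toJn (F : SimpleGraph V) (G : SimpleGraph W) : JV F G → (V ⊕ W) ⊕ (jn F G).edgeSet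
  | .inl (.inl v) => .inl (.inl v)
  | .inl (.inr e) => .inr (jl F G e)
  | .inr (.inl (.inl w)) => .inl (.inr w)
  | .inr (.inl (.inr e)) => .inr (jr F G e)
  | .inr (.inr (c, _)) => .inr (jm F G (vOf c.1) (vOf c.2))

theorem jl_inj {e e' : F.edgeSet} (h : jl F G e = jl F G e') : e = e' :=
  Subtype.ext (Sym2.map.injective Sum.inl_injective (congrArg Subtype.val h))

theorem jr_inj {e e' : G.edgeSet} (h : jr F G e = jr F G e') : e = e' :=
  Subtype.ext (Sym2.map.injective Sum.inr_injective (congrArg Subtype.val h))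

theorem jl_ne_jr {e : F.edgeSet} {e' : G.edgeSet} : jl F G e ≠ jr F G e' := by
  intro h
  have h1 : Sum.inl e.1.out.1 ∈ (jl F G e).1 := inl_mem_jl.2 (Sym2.out_fst_mem _)
  rw [h] at h1
  exact inl_mem_jr.1 h1

theorem jl_ne_jm {e : F.edgeSet} {v : V} {w : W} : jl F G e ≠ jm F G v w := by
  intro h
  have h1 : Sum.inr w ∈ (jm F G v w).1 := inr_mem_jm.2 rfl
  rw [← h] at h1
  exact inr_mem_jl.1 h1

theorem jr_ne_jm {e : G.edgeSet} {v : V} {w : W} : jr F G e ≠ jm F G v w := by
  intro h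
  have h1 : Sum.inl v ∈ (jm F G v w).1 := inl_mem_jm.2 rfl
  rw [← h] at h1
  exact inl_mem_jr.1 h1

theorem jm_inj {v v' : V} {w w' : W} (h : jm F G v w = jm F G v' w') : v = v' ∧ w = w' := by
  have h1 : Sum.inl v ∈ (jm F G v w).1 := inl_mem_jm.2 rfl
  have h2 : Sum.inr w ∈ (jm F G v w).1 := inr_mem_jm.2 rfl
  rw [h] at h1 h2
  exact ⟨inl_mem_jm.1 h1, inr_mem_jm.1 h2⟩

theorem toJn_inj (F : SimpleGraph V) (G : SimpleGraph W) : Function.Injective (toJn F G) := by
  rintro ((v | e) | (w | e) | ⟨⟨a, b⟩, u⟩) ((v' | e') | (w' | e') | ⟨⟨a', b'⟩, u'⟩) h <;>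
    simp only [toJn] at h
  · rw [Sum.inl_injective (Sum.inl_injective h)]
  · simp at h
  · simp at h
  · simp at h
  · simp at h
  · simp at h
  · rw [jl_inj (Sum.inr_injective h)]
  · simp at h
  · exact absurd (Sum.inr_injective h) jl_ne_jr
  · exact absurd (Sum.inr_injective h) jl_ne_jm
  · simp at h
  · simp at h
  · rw [Sum.inr_injective (Sum.inl_injective h)]
  · simp at h
  · simp at h
  · simp at h
  · exact absurd (Sum.inr_injective h).symm jl_ne_jr
  · simp at h
  · rw [jr_inj (Sum.inr_injective h)]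
  · exact absurd (Sum.inr_injective h) jr_ne_jm
  · simp at h
  · exact absurd (Sum.inr_injective h).symm jl_ne_jm
  · simp at h
  · exact absurd (Sum.inr_injective h).symm jr_ne_jm
  · have h1 := jm_inj (Sum.inr_injective h)
    rw [vOf_inj h1.1, vOf_inj h1.2]

theorem place_false (c : {x : V ⊕ F.edgeSet // x.isRight = false} ×
    {y : W ⊕ G.edgeSet // y.isRight = false}) :
    (place (P := Unit) c (Sum.inl false) : JV F G) = Sum.inl (Sum.inl (vOf c.1)) :=
  congrArg Sum.inl (val_vOf c.1)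

theorem place_true (c : {x : V ⊕ F.edgeSet // x.isRight = false} ×
    {y : W ⊕ G.edgeSet // y.isRight = false}) :
    (place (P := Unit) c (Sum.inl true) : JV F G) = Sum.inr (Sum.inl (Sum.inl (vOf c.2))) :=
  congrArg (fun x => Sum.inr (Sum.inl x)) (val_vOf c.2)

/-- the adjacency of the joined graph -/
theorem joinBy_cherry_adj (p q : JV F G) :
    (joinBy (sub1 F) (sub1 G) cherry Sum.isRight Sum.isRight false false).Adj p q ↔
      (sub1 (jn F G)).Adj (toJn F G p) (toJn F G q) := by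
  constructor
  · rintro (⟨x, y, h, rfl, rfl⟩ | ⟨x, y, h, rfl, rfl⟩ | ⟨c, x, y, h, rfl, rfl⟩)
    · rcases x with x | x <;> rcases y with y | y
      · exact h
      · exact inl_mem_jl.2 h
      · exact inl_mem_jl.2 h
      · exact h
    · rcases x with x | x <;> rcases y with y | y
      · exact h
      · exact inr_mem_jr.2 h
      · exact inr_mem_jr.2 h
      · exact h
    · rcases h with ⟨h1, h2⟩ | ⟨h1, h2⟩
      · obtain ⟨x, rfl⟩ := Sum.isLeft_iff.1 h1
        obtain ⟨y, rfl⟩ := Sum.isRight_iff.1 h2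
        cases x
        · rw [place_false]
          exact inl_mem_jm.2 rfl
        · rw [place_true]
          exact inr_mem_jm.2 rfl
      · obtain ⟨x, rfl⟩ := Sum.isRight_iff.1 h1
        obtain ⟨y, rfl⟩ := Sum.isLeft_iff.1 h2
        cases y
        · rw [place_false]
          exact inl_mem_jm.2 rfl
        · rw [place_true]
          exact inr_mem_jm.2 rfl
  · intro h
    have a1 : ∀ (v : V) (e : F.edgeSet), v ∈ e.1 →
        (joinBy (sub1 F) (sub1 G) cherry Sum.isRight Sum.isRight false false).Adj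
          (Sum.inl (Sum.inl v)) (Sum.inl (Sum.inr e)) := fun v e he =>
      Or.inl ⟨Sum.inl v, Sum.inr e, he, rfl, rfl⟩
    have a2 : ∀ (w : W) (e : G.edgeSet), w ∈ e.1 →
        (joinBy (sub1 F) (sub1 G) cherry Sum.isRight Sum.isRight false false).Adj
          (Sum.inr (Sum.inl (Sum.inl w))) (Sum.inr (Sum.inl (Sum.inr e))) := fun w e he =>
      Or.inr (Or.inl ⟨Sum.inl w, Sum.inr e, he, rfl, rfl⟩)
    have a3 : ∀ (c : {x : V ⊕ F.edgeSet // x.isRight = false} ×
        {y : W ⊕ G.edgeSet // y.isRight = false}) (u : Unit),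
        (joinBy (sub1 F) (sub1 G) cherry Sum.isRight Sum.isRight false false).Adj
          (Sum.inl (Sum.inl (vOf c.1))) (Sum.inr (Sum.inr (c, u))) := fun c u =>
      Or.inr (Or.inr ⟨c, Sum.inl false, Sum.inr u, Or.inl ⟨rfl, rfl⟩, (place_false c).symm, rfl⟩)
    have a4 : ∀ (c : {x : V ⊕ F.edgeSet // x.isRight = false} ×
        {y : W ⊕ G.edgeSet // y.isRight = false}) (u : Unit),
        (joinBy (sub1 F) (sub1 G) cherry Sum.isRight Sum.isRight false false).Adj
          (Sum.inr (Sum.inl (Sum.inl (vOf c.2)))) (Sum.inr (Sum.inr (c, u))) := fun c u =>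
      Or.inr (Or.inr ⟨c, Sum.inl true, Sum.inr u, Or.inl ⟨rfl, rfl⟩, (place_true c).symm, rfl⟩)
    rcases p with (v | e) | (w | e) | ⟨c, u⟩ <;> rcases q with (v' | e') | (w' | e') | ⟨c', u'⟩
    · exact h.elim
    · exact a1 v e' (inl_mem_jl.1 h)
    · exact h.elim
    · exact (inl_mem_jr.1 h).elim
    · have h1 := inl_mem_jm.1 h
      rw [h1]
      exact a3 c' u'
    · exact (a1 v' e (inl_mem_jl.1 h)).symm
    · exact h.elim
    · exact (inr_mem_jl.1 h).elim
    · exact h.elim
    · exact h.elim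
    · exact h.elim
    · exact (inr_mem_jl.1 h).elim
    · exact h.elim
    · exact a2 w e' (inr_mem_jr.1 h)
    · have h1 := inr_mem_jm.1 h
      rw [h1]
      exact a4 c' u'
    · exact (inl_mem_jr.1 h).elim
    · exact h.elim
    · exact (a2 w' e (inr_mem_jr.1 h)).symm
    · exact h.elim
    · exact h.elim
    · have h1 := inl_mem_jm.1 h
      rw [h1]
      exact (a3 c u).symm
    · exact h.elim
    · have h1 := inr_mem_jm.1 h
      rw [h1]
      exact (a4 c u).symm
    · exact h.elim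
    · exact h.elim

theorem toJn_surj (F : SimpleGraph V) (G : SimpleGraph W) (u : (V ⊕ W) ⊕ (jn F G).edgeSet) :
    u ∈ Set.range (toJn F G) := by
  rcases u with (v | w) | ⟨f, hf⟩
  · exact ⟨Sum.inl (Sum.inl v), rfl⟩
  · exact ⟨Sum.inr (Sum.inl (Sum.inl w)), rfl⟩
  · induction f using Sym2.ind with
    | _ p q =>
      have hf' := hf
      rw [SimpleGraph.mem_edgeSet, SimpleGraph.sup_adj] at hf'
      rcases p with a | a <;> rcases q with b | b
      · rcases hf' with h | ⟨h, h'⟩ | ⟨h, h'⟩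
        · exact ⟨Sum.inl (Sum.inr ⟨s(a, b), h⟩), rfl⟩
        · simp at h'
        · simp at h
      · exact ⟨Sum.inr (Sum.inr ((⟨Sum.inl a, rfl⟩, ⟨Sum.inl b, rfl⟩), ())), rfl⟩
      · refine ⟨Sum.inr (Sum.inr ((⟨Sum.inl b, rfl⟩, ⟨Sum.inl a, rfl⟩), ())), ?_⟩
        refine congrArg Sum.inr (Subtype.ext ?_)
        exact Sym2.eq_swap
      · rcases hf' with h | ⟨h, h'⟩ | ⟨h, h'⟩
        · exact ⟨Sum.inr (Sum.inl (Sum.inr ⟨s(a, b), h⟩)), rfl⟩
        · simp at h
        · simp at h'

theorem toJn_side (p : JV F G) : (toJn F G p).isRight =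
    joinBySide Sum.isRight Sum.isRight false false Sum.isRight p := by
  rcases p with (v | e) | (w | e) | ⟨c, u⟩ <;> rfl

end Vale.Agent.P050.H98
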